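import Vale.Agent.P216.MV337.Main

/-!
# P216-B, [PTRIV]: the start-point path fibration

`PF x₀ t`: Moore-Lipschitz paths with free start and end `x₀`; the fibre of `w ↦ w 0` over `x₀` is
`P x₀ x₀ t`.  One-sided versions of the conjugations of `MV337/Triv.lean`:

* `lcut T ℓ w` = `T_(w 0)⁻¹ * w` in `P x₀ x₀ (t + ℓ)`;
* `lback T ℓ (x, v)` = `T_x * v` in `PF x₀ (t + ℓ)`, with start `x`;
* the homotopies `lhA` (`w ~ lback (w 0, lcut w)`), `lhB` (`v ~ lcut (lback (x, v))`);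
* `ptrivOf`, `exists_ptriv`: `H901.Triv` for `PF x₀`.
-/

set_option linter.all false

namespace Vale.Agent.P216.H456

open Set Filter Topology BoundedContinuousFunction
open Vale.Agent.P216.PS
open Vale.Agent.P216.MV337
open Vale.Agent.P216.AS (IsMap IsHtpy)
open Vale.Agent.P216.H901 (Hp SpIntl Cu cub bdc ovr tr Triv)

section basic

variable {M : Type*} [MetricSpace M]

/-- Moore-Lipschitz paths of time `t` with free start and end `x₀` -/
def PF (x₀ : M) (t : ℝ) : Set (ℝ →ᵇ M) :=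
  {w | (∀ u v, dist (w u) (w v) ≤ |u - v|) ∧ (∀ u ≤ 0, w u = w 0) ∧ ∀ u, t ≤ u → w u = x₀}

variable {a b x₀ : M} {t t' u m ℓ : ℝ} {w v : ℝ →ᵇ M}

theorem PF_mono (h : t ≤ t') : PF x₀ t ⊆ PF x₀ t' :=
  fun _ hw => ⟨hw.1, hw.2.1, fun u hu => hw.2.2 u (h.trans hu)⟩

theorem mem_PF_iff : w ∈ PF x₀ t ↔ w ∈ P (w 0) x₀ t := Iff.rfl

theorem P_subset_PF : P a x₀ t ⊆ PF x₀ t := fun w hw =>
  ⟨hw.1, fun u hu => by rw [eq_left hw hu, eq_left hw le_rfl], hw.2.2⟩

theorem PF_subset_PP : PF x₀ t ⊆ PP M t := fun w hw => P_subset_PP (mem_PF_iff.1 hw)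

/-- `q` backwards in time `m`, then `w` -/
noncomputable def lj (m : ℝ) (q w : ℝ → M) (u : ℝ) : M := if u ≤ m then q (m - u) else w (u - m)

variable {q q' f : ℝ → M}

omit [MetricSpace M] in
theorem lj_left (hu : u ≤ m) : lj m q f u = q (m - u) := if_pos hu

omit [MetricSpace M] in
theorem lj_right (h0 : f 0 = q 0) (hu : m ≤ u) : lj m q f u = f (u - m) := by
  rcases hu.eq_or_lt with rfl | hu
  · rw [lj_left le_rfl, sub_self, h0]
  · rw [lj, if_neg (not_le.2 hu)]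

theorem lip_lj (hq : Lip q) (hf : Lip f) (h0 : f 0 = q 0) : Lip (lj m q f) := by
  refine lip_glue m (fun u v huv hv => ?_) fun u v hu huv => ?_
  · rw [lj_left (huv.trans hv), lj_left hv, dist_comm]
    exact (hq.le (by linarith)).trans_eq (by ring)
  · rw [lj_right h0 hu, lj_right h0 (hu.trans huv)]
    exact (hf.le (by linarith)).trans_eq (by ring)

omit [MetricSpace M] in
theorem lj_nonpos (hm : 0 ≤ m) (hq : ∀ u, m ≤ u → q u = a) (hu : u ≤ 0) : lj m q f u = a := by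
  rw [lj_left (hu.trans hm), hq _ (by linarith)]

omit [MetricSpace M] in
theorem lj_ge (ht : 0 ≤ t) (h0 : f 0 = q 0) (hf : ∀ u, t ≤ u → f u = b) (hu : t + m ≤ u) :
    lj m q f u = b := by
  rw [lj_right h0 (by linarith), hf _ (by linarith)]

omit [MetricSpace M] in
/-- a constant first part is a shift in time -/
theorem lj_const (f : ℝ → M) (a : M) (hf : ∀ u ≤ 0, f u = a) : lj m (fun _ => a) f u = f (u - m) := by
  rcases le_total u m with h | h
  · rw [lj_left h, hf _ (by linarith)]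
  · exact lj_right (hf 0 le_rfl) h

omit [MetricSpace M] in
/-- twice -/
theorem lj_lj {m' : ℝ} (hm : 0 ≤ m) (hm' : 0 ≤ m') (h0 : f 0 = q 0) (hqq : q m = q' 0) (u : ℝ) :
    lj m' q' (lj m q f) u = lj (m + m') (catf m q q') f u := by
  have c0 : catf m q q' 0 = q 0 := catf_left hm
  have e0 : lj m q f 0 = q' 0 := by rw [lj_left hm, sub_zero, hqq]
  rcases le_total u m' with h | h
  · rw [lj_left h, lj_left (by linarith), catf_right hqq (by linarith)]
    congr 1; ring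
  rcases le_total u (m + m') with h' | h'
  · rw [lj_right e0 h, lj_left (by linarith), lj_left h', catf_left (by linarith)]
    congr 1; ring
  · rw [lj_right e0 h, lj_right h0 (by linarith), lj_right (h0.trans c0.symm) h']
    congr 1; ring

/-- Pointwise continuity. -/
theorem continuousOn_lj {S : Type*} [TopologicalSpace S] {A : Set S} {Q : S → ℝ → M}
    {W : S → ℝ → M} {m : S → ℝ} (u : ℝ) (hm : ContinuousOn m A)
    (hQ : ∀ φ : S → ℝ, ContinuousOn φ A → ContinuousOn (fun s => Q s (φ s)) A)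
    (hW : ∀ φ : S → ℝ, ContinuousOn φ A → ContinuousOn (fun s => W s (φ s)) A)
    (h0 : ∀ s ∈ A, W s 0 = Q s 0) : ContinuousOn (fun s => lj (m s) (Q s) (W s) u) A := by
  unfold lj
  refine PS.ContinuousOn.if_le' (hQ _ (hm.sub continuousOn_const)) (hW _ (continuousOn_const.sub hm))
    continuousOn_const hm fun s hs he => ?_
  rw [he, sub_self, h0 s hs]

section Compact

variable [CompactSpace M]

theorem mo_lj_mem (hq : Lip q) (hf : Lip f) (ht : 0 ≤ t) (hm : 0 ≤ m) (h0 : f 0 = q 0)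
    (hqa : ∀ u, m ≤ u → q u = a) (hfb : ∀ u, t ≤ u → f u = b) : mo (lj m q f) ∈ P a b (t + m) :=
  mo_mem (lip_lj hq hf h0) (fun _ hu => lj_nonpos hm hqa hu) fun _ hu => lj_ge ht h0 hfb hu

/-- `PF x₀ t` is compact. -/
theorem isCompact_PF (x₀ : M) (ht : 0 ≤ t) : IsCompact (PF x₀ t) := by
  let S : Set (C(Icc (0 : ℝ) t, M)) :=
    {w | (∀ u v, dist (w u) (w v) ≤ |(u : ℝ) - v|) ∧ w ⟨t, ht, le_rfl⟩ = x₀}
  have hS : IsCompact S := by
    refine ArzelaAscoli.isCompact_of_equicontinuous S ?_ ?_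
    · have himg : ContinuousMap.toFun '' S =
          {f : Icc (0 : ℝ) t → M | (∀ u v, dist (f u) (f v) ≤ |(u : ℝ) - v|) ∧
            f ⟨t, ht, le_rfl⟩ = x₀} := by
        ext f
        constructor
        · rintro ⟨g, hg, rfl⟩
          exact hg
        · intro hf
          have hc : Continuous f := by
            refine (LipschitzWith.of_dist_le_mul (K := 1) fun u v => ?_).continuous
            rw [NNReal.coe_one, one_mul, Subtype.dist_eq, Real.dist_eq]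
            exact hf.1 u v
          exact ⟨⟨f, hc⟩, hf, rfl⟩
      rw [himg]
      refine IsClosed.isCompact ?_
      have h1 : IsClosed {f : Icc (0 : ℝ) t → M | ∀ u v, dist (f u) (f v) ≤ |(u : ℝ) - v|} := by
        simp only [Set.ofPred_forall]
        exact isClosed_iInter fun u => isClosed_iInter fun v =>
          isClosed_le ((continuous_apply u).dist (continuous_apply v)) continuous_const
      have h2 : IsClosed {f : Icc (0 : ℝ) t → M | f ⟨t, ht, le_rfl⟩ = x₀} :=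
        isClosed_eq (continuous_apply _) continuous_const
      exact h1.inter h2
    · have := Metric.uniformEquicontinuous_of_continuity_modulus (fun r => r) tendsto_id
        (fun g : S => (g : Icc (0 : ℝ) t → M)) (fun x y g => by
          rw [Subtype.dist_eq, Real.dist_eq]
          exact g.2.1 x y)
      exact this.equicontinuous
  let ext : C(Icc (0 : ℝ) t, M) → (ℝ →ᵇ M) := fun w =>
    bc (fun u => w (projIcc 0 t ht u)) (w.continuous.comp continuous_projIcc)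
  have hext : Continuous ext := by
    refine LipschitzWith.continuous (K := 1) (LipschitzWith.of_dist_le_mul fun w w' => ?_)
    rw [NNReal.coe_one, one_mul, BoundedContinuousFunction.dist_le dist_nonneg]
    intro u
    exact ContinuousMap.dist_apply_le_dist (f := w) (g := w') (projIcc 0 t ht u)
  have himg : ext '' S = PF x₀ t := by
    ext w
    constructor
    · rintro ⟨g, hg, rfl⟩
      have p0 : projIcc 0 t ht 0 = ⟨0, le_rfl, ht⟩ := projIcc_of_le_left ht le_rfl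
      refine ⟨fun u v => ?_, fun u hu => ?_, fun u hu => ?_⟩
      · refine (hg.1 _ _).trans ?_
        have := abs_projIcc_sub_projIcc (h := ht) (c := u) (d := v)
        exact this
      · change g (projIcc 0 t ht u) = g (projIcc 0 t ht 0)
        rw [projIcc_of_le_left ht hu, p0]
      · change g (projIcc 0 t ht u) = x₀
        rw [projIcc_of_right_le ht hu]
        exact hg.2
    · intro hw
      refine ⟨⟨fun u => w u, w.continuous.comp continuous_subtype_val⟩,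
        ⟨fun u v => hw.1 u v, hw.2.2 t le_rfl⟩, ?_⟩
      ext u
      change w (projIcc 0 t ht u) = w u
      rcases le_total u 0 with h0 | h0
      · rw [projIcc_of_le_left ht h0, hw.2.1 u h0]
      rcases le_total t u with h1 | h1
      · rw [projIcc_of_right_le ht h1, hw.2.2 u h1]
        exact hw.2.2 t le_rfl
      · rw [projIcc_of_mem ht ⟨h0, h1⟩]
  rw [← himg]
  exact hS.image hext

end Compact

/-- paths of time `t` with start in `D` and end `x₀` -/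
def PFD (x₀ : M) (D : Set M) (t : ℝ) : Set (ℝ →ᵇ M) := {w | w ∈ PF x₀ t ∧ w 0 ∈ D}

variable {D D' : Set M} {T : M → ℝ → M}

theorem PFD_mono (h : D ⊆ D') (ht : t ≤ t') : PFD x₀ D t ⊆ PFD x₀ D' t' :=
  fun _ hw => ⟨PF_mono ht hw.1, h hw.2⟩

theorem isCompact_PFD [CompactSpace M] (hD : IsClosed D) (ht : 0 ≤ t) : IsCompact (PFD x₀ D t) :=
  (isCompact_PF x₀ ht).inter_right (hD.preimage (f := fun w : ℝ →ᵇ M => w 0) (by fun_prop))

/-- cut: from the paths with start in `D` to the based loops -/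
noncomputable def lcut [CompactSpace M] (T : M → ℝ → M) (ℓ : ℝ) (w : ℝ →ᵇ M) : ℝ →ᵇ M :=
  mo (lj ℓ (T (w 0)) w)

/-- back: from the based loops to the paths with start `x` -/
noncomputable def lback [CompactSpace M] (T : M → ℝ → M) (ℓ : ℝ) (p : M × (ℝ →ᵇ M)) : ℝ →ᵇ M :=
  mo (lj ℓ (fun u => T p.1 (ℓ - u)) p.2)

/-- first homotopy: from `w` to `lback (w 0, lcut w)` -/
noncomputable def lhA [CompactSpace M] (T : M → ℝ → M) (ℓ : ℝ) (p : ℝ × (ℝ →ᵇ M)) : ℝ →ᵇ M :=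
  mo (lj (min 1 (2 * p.1) * (2 * ℓ))
    (fun u => T (p.2 0) (min (max 0 (2 * p.1 - 1) * ℓ) (ℓ - |u - ℓ|))) p.2)

/-- second homotopy: from `v` to `lcut (lback (x, v))` -/
noncomputable def lhB [CompactSpace M] (T : M → ℝ → M) (ℓ : ℝ) (p : ℝ × (M × (ℝ →ᵇ M))) : ℝ →ᵇ M :=
  mo (lj (min 1 (2 * p.1) * (2 * ℓ))
    (fun u => T p.2.1 (max (ℓ - max 0 (2 * p.1 - 1) * ℓ) |u - ℓ|)) p.2.2)

variable [CompactSpace M] {l : ℝ}

theorem lcut_mem (h : Tr D x₀ ℓ T) (ht : 0 ≤ t) (hw : w ∈ PFD x₀ D t) :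
    lcut T ℓ w ∈ P x₀ x₀ (t + ℓ) :=
  mo_lj_mem (h.lip _ hw.2) hw.1.1 ht h.nonneg (h.left _ hw.2 0 le_rfl).symm (h.right _ hw.2)
    hw.1.2.2

theorem lback_mem (h : Tr D x₀ ℓ T) (ht : 0 ≤ t) {p : M × (ℝ →ᵇ M)} (hx : p.1 ∈ D)
    (hv : p.2 ∈ P x₀ x₀ t) : lback T ℓ p ∈ P p.1 x₀ (t + ℓ) := by
  have e : T p.1 (ℓ - 0) = x₀ := by rw [sub_zero]; exact h.right _ hx _ le_rfl
  refine mo_lj_mem (h.liprev hx) hv.1 ht h.nonneg ?_ (fun u hu => ?_) hv.2.2
  · show p.2 0 = T p.1 (ℓ - 0)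
    rw [e, eq_left hv le_rfl]
  · exact h.left _ hx _ (by linarith)

theorem lback_zero (h : Tr D x₀ ℓ T) (ht : 0 ≤ t) {p : M × (ℝ →ᵇ M)} (hx : p.1 ∈ D)
    (hv : p.2 ∈ P x₀ x₀ t) : lback T ℓ p 0 = p.1 := eq_left (lback_mem h ht hx hv) le_rfl

theorem lback_memD (h : Tr D x₀ ℓ T) (ht : 0 ≤ t) {p : M × (ℝ →ᵇ M)} (hx : p.1 ∈ D)
    (hv : p.2 ∈ P x₀ x₀ t) : lback T ℓ p ∈ PFD x₀ D (t + ℓ) :=
  ⟨P_subset_PF (lback_mem h ht hx hv), by rw [lback_zero h ht hx hv]; exact hx⟩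

/-- the values of `lcut` -/
theorem lcut_apply (h : Tr D x₀ ℓ T) (hw : w ∈ PFD x₀ D t) (u : ℝ) :
    lcut T ℓ w u = lj ℓ (T (w 0)) w u :=
  (lip_lj (h.lip _ hw.2) hw.1.1 (h.left _ hw.2 0 le_rfl).symm).mo_apply u

/-- the values of `lback` -/
theorem lback_apply (h : Tr D x₀ ℓ T) {p : M × (ℝ →ᵇ M)} (hx : p.1 ∈ D)
    (hv : p.2 ∈ P x₀ x₀ t) (u : ℝ) : lback T ℓ p u = lj ℓ (fun u => T p.1 (ℓ - u)) p.2 u := by
  refine (lip_lj (h.liprev hx) hv.1 ?_).mo_apply u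
  show p.2 0 = T p.1 (ℓ - 0)
  rw [sub_zero, h.right _ hx _ le_rfl, eq_left hv le_rfl]

theorem continuousOn_lcut' (h : Tr D x₀ ℓ T) {S : Type*} [TopologicalSpace S] {A : Set S}
    {W : S → ℝ →ᵇ M} (ht : 0 ≤ t) (hW : ContinuousOn W A) (hm : ∀ s ∈ A, W s ∈ PFD x₀ D t) :
    ContinuousOn (fun s => lcut T ℓ (W s)) A := by
  have hX : ContinuousOn (fun s => W s 0) A := continuousOn_eval hW continuousOn_const
  refine continuousOn_of_eval (t := t + ℓ) (by linarith [h.nonneg]) (fun s hs => ?_) fun u => ?_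
  · exact P_subset_PP (lcut_mem h ht (hm s hs))
  · refine ContinuousOn.congr (f := fun s => lj ℓ (T (W s 0)) (W s) u) ?_ fun s hs =>
      lcut_apply h (hm s hs) u
    refine continuousOn_lj u continuousOn_const (fun φ hφ => ?_) (fun φ hφ => ?_) fun s hs => ?_
    · exact h.cont' hX (fun s hs => (hm s hs).2) hφ
    · exact continuousOn_eval hW hφ
    · exact (h.left _ (hm s hs).2 0 le_rfl).symm

theorem continuousOn_lcut (h : Tr D x₀ ℓ T) (ht : 0 ≤ t) :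
    ContinuousOn (lcut T ℓ) (PFD x₀ D t) :=
  continuousOn_lcut' h ht continuousOn_id fun _ hs => hs

theorem continuousOn_lback' (h : Tr D x₀ ℓ T) {S : Type*} [TopologicalSpace S] {A : Set S}
    {X : S → M} {W : S → ℝ →ᵇ M} (ht : 0 ≤ t) (hX : ContinuousOn X A) (hW : ContinuousOn W A)
    (hXD : ∀ s ∈ A, X s ∈ D) (hm : ∀ s ∈ A, W s ∈ P x₀ x₀ t) :
    ContinuousOn (fun s => lback T ℓ (X s, W s)) A := by
  refine continuousOn_of_eval (t := t + ℓ) (by linarith [h.nonneg]) (fun s hs => ?_) fun u => ?_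
  · exact P_subset_PP (lback_mem (p := (X s, W s)) h ht (hXD s hs) (hm s hs))
  · refine ContinuousOn.congr (f := fun s => lj ℓ (fun u => T (X s) (ℓ - u)) (W s) u) ?_
      fun s hs => lback_apply (p := (X s, W s)) h (hXD s hs) (hm s hs) u
    refine continuousOn_lj u continuousOn_const (fun φ hφ => ?_) (fun φ hφ => ?_) fun s hs => ?_
    · exact h.cont' hX hXD (continuousOn_const.sub hφ)
    · exact continuousOn_eval hW hφ
    · show W s 0 = T (X s) (ℓ - 0)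
      rw [sub_zero, h.right _ (hXD s hs) _ le_rfl, eq_left (hm s hs) le_rfl]

theorem continuousOn_lback (h : Tr D x₀ ℓ T) (ht : 0 ≤ t) :
    ContinuousOn (lback T ℓ) (D ×ˢ P x₀ x₀ t) :=
  continuousOn_lback' h ht continuousOn_fst continuousOn_snd (fun _ hs => hs.1) fun _ hs => hs.2

/-! ### first homotopy -/

theorem lhA_mem (h : Tr D x₀ ℓ T) (ht : 0 ≤ t) (hl : 0 ≤ l) (hw : w ∈ PFD x₀ D t) :
    lhA T ℓ (l, w) ∈ P (w 0) x₀ (t + 2 * ℓ) := by
  refine P_mono (t := t + min 1 (2 * l) * (2 * ℓ)) (by linarith [h.mL_le (l := l)]) ?_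
  exact mo_lj_mem (h.qA_lip hw.2 _) hw.1.1 ht (h.mL_nonneg hl) (h.qA_zero hw.2 _).symm
    (fun u hu => h.qA_ge hw.2 hl hu) hw.1.2.2

theorem lhA_zero (h : Tr D x₀ ℓ T) (hw : w ∈ PFD x₀ D t) : lhA T ℓ (0, w) = w := by
  have e : (fun u => T (w 0) (min (max 0 (2 * (0:ℝ) - 1) * ℓ) (ℓ - |u - ℓ|))) = fun _ => w 0 := by
    funext u
    refine h.left _ hw.2 _ ((min_le_left _ _).trans ?_)
    rw [max_eq_left (by norm_num), zero_mul]
  unfold lhA
  simp only [mul_zero]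
  simp only [mul_zero] at e
  rw [e, min_eq_right zero_le_one, zero_mul]
  have e2 : lj 0 (fun _ => w 0) w = fun u => w u := by
    funext u
    rw [lj_const w (w 0) hw.1.2.1, sub_zero]
  rw [e2, mo_self]

theorem lhA_one (h : Tr D x₀ ℓ T) (hw : w ∈ PFD x₀ D t) :
    lhA T ℓ (1, w) = lback T ℓ (w 0, lcut T ℓ w) := by
  have hn := h.nonneg
  unfold lhA lback
  congr 1
  funext u
  have e0 : w 0 = T (w 0) 0 := (h.left _ hw.2 0 le_rfl).symm
  have ec : (fun u => (lcut T ℓ w) u) = lj ℓ (T (w 0)) w := by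
    funext u
    exact lcut_apply h hw u
  show lj (min 1 (2 * 1) * (2 * ℓ)) (fun u => T (w 0) (min (max 0 (2 * 1 - 1) * ℓ) (ℓ - |u - ℓ|)))
    w u = lj ℓ (fun u => T (w 0) (ℓ - u)) (fun u => (lcut T ℓ w) u) u
  rw [ec, lj_lj hn hn e0 (by rw [sub_zero])]
  have em : min 1 (2 * (1:ℝ)) * (2 * ℓ) = ℓ + ℓ := by norm_num; ring
  have eq : (fun u => T (w 0) (min (max 0 (2 * 1 - 1) * ℓ) (ℓ - |u - ℓ|))) =
      catf ℓ (T (w 0)) (fun u => T (w 0) (ℓ - u)) := by
    funext u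
    have e3 : max 0 (2 * (1:ℝ) - 1) * ℓ = ℓ := by norm_num
    rw [e3]
    rcases le_total u ℓ with h1 | h1
    · rw [catf_left h1, abs_of_nonpos (by linarith), min_eq_right (by linarith)]
      congr 1; ring
    · rw [catf_right (by rw [sub_zero]) h1, abs_of_nonneg (by linarith), min_eq_right (by linarith)]
  rw [em, eq]

theorem continuousOn_lhA (h : Tr D x₀ ℓ T) (ht : 0 ≤ t) :
    ContinuousOn (lhA T ℓ) (Icc (0:ℝ) 1 ×ˢ PFD x₀ D t) := by
  have hW : ContinuousOn (fun p : ℝ × (ℝ →ᵇ M) => p.2) (Icc (0:ℝ) 1 ×ˢ PFD x₀ D t) := continuousOn_snd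
  have hX : ContinuousOn (fun p : ℝ × (ℝ →ᵇ M) => p.2 0) (Icc (0:ℝ) 1 ×ˢ PFD x₀ D t) :=
    continuousOn_eval hW continuousOn_const
  have hn := h.nonneg
  refine continuousOn_of_eval (t := t + 2 * ℓ) (by linarith) (fun p hp => ?_) fun u => ?_
  · exact P_subset_PP (lhA_mem (l := p.1) (w := p.2) h ht hp.1.1 hp.2)
  · refine ContinuousOn.congr (f := fun p : ℝ × (ℝ →ᵇ M) => lj (min 1 (2 * p.1) * (2 * ℓ))
      (fun u => T (p.2 0) (min (max 0 (2 * p.1 - 1) * ℓ) (ℓ - |u - ℓ|))) p.2 u) ?_ fun p hp => ?_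
    · refine continuousOn_lj u ?_ (fun φ hφ => ?_) (fun φ hφ => ?_) fun p hp => ?_
      · fun_prop
      · refine h.cont' hX (fun p hp => hp.2.2) ?_
        fun_prop
      · exact continuousOn_eval hW hφ
      · exact (h.qA_zero hp.2.2 _).symm
    · exact (lip_lj (h.qA_lip hp.2.2 _) hp.2.1.1 (h.qA_zero hp.2.2 _).symm).mo_apply u

/-! ### second homotopy -/

theorem lhB_mem (h : Tr D x₀ ℓ T) (ht : 0 ≤ t) (hl : 0 ≤ l) {x : M} (hx : x ∈ D)
    (hv : v ∈ P x₀ x₀ t) : lhB T ℓ (l, (x, v)) ∈ P x₀ x₀ (t + 2 * ℓ) := by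
  refine P_mono (t := t + min 1 (2 * l) * (2 * ℓ)) (by linarith [h.mL_le (l := l)]) ?_
  exact mo_lj_mem (h.qB_lip hx _) hv.1 ht (h.mL_nonneg hl)
    ((eq_left hv le_rfl).trans (h.qB_zero hx _).symm) (fun u hu => h.qB_ge hx hl hu) hv.2.2

theorem lhB_zero (h : Tr D x₀ ℓ T) {x : M} (hx : x ∈ D) (hv : v ∈ P x₀ x₀ t) :
    lhB T ℓ (0, (x, v)) = v := by
  have e : (fun u => T x (max (ℓ - max 0 (2 * (0:ℝ) - 1) * ℓ) |u - ℓ|)) = fun _ => x₀ := by
    funext u
    refine h.right _ hx _ (le_trans ?_ (le_max_left _ _))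
    rw [max_eq_left (by norm_num : 2 * (0:ℝ) - 1 ≤ 0), zero_mul, sub_zero]
  unfold lhB
  simp only [mul_zero]
  simp only [mul_zero] at e
  rw [e, min_eq_right zero_le_one, zero_mul]
  have e2 : lj 0 (fun _ => x₀) v = fun u => v u := by
    funext u
    rw [lj_const v x₀ hv.2.1, sub_zero]
  rw [e2, mo_self]

theorem lhB_one (h : Tr D x₀ ℓ T) (ht : 0 ≤ t) {x : M} (hx : x ∈ D) (hv : v ∈ P x₀ x₀ t) :
    lhB T ℓ (1, (x, v)) = lcut T ℓ (lback T ℓ (x, v)) := by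
  have hn := h.nonneg
  have hb0 : lback T ℓ (x, v) 0 = x := lback_zero h ht hx hv
  unfold lcut
  rw [hb0]
  unfold lhB
  congr 1
  funext u
  have e0 : v 0 = T x (ℓ - 0) := by
    rw [sub_zero, h.right _ hx _ le_rfl, eq_left hv le_rfl]
  have ec : (fun u => (lback T ℓ (x, v)) u) = lj ℓ (fun u => T x (ℓ - u)) v := by
    funext u
    exact lback_apply (p := (x, v)) h hx hv u
  show lj (min 1 (2 * 1) * (2 * ℓ)) (fun u => T x (max (ℓ - max 0 (2 * 1 - 1) * ℓ) |u - ℓ|))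
    v u = lj ℓ (T x) (fun u => (lback T ℓ (x, v)) u) u
  rw [ec, lj_lj (q := fun u => T x (ℓ - u)) (q' := T x) hn hn e0 (by
      show T x (ℓ - ℓ) = T x 0
      rw [sub_self])]
  have em : min 1 (2 * (1:ℝ)) * (2 * ℓ) = ℓ + ℓ := by norm_num; ring
  have eq : (fun u => T x (max (ℓ - max 0 (2 * 1 - 1) * ℓ) |u - ℓ|)) =
      catf ℓ (fun u => T x (ℓ - u)) (T x) := by
    funext u
    have e3 : ℓ - max 0 (2 * (1:ℝ) - 1) * ℓ = 0 := by norm_num
    rw [e3, max_eq_right (abs_nonneg _)]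
    rcases le_total u ℓ with h1 | h1
    · rw [catf_left h1, abs_of_nonpos (by linarith)]
      congr 1; ring
    · rw [catf_right (by rw [sub_self]) h1, abs_of_nonneg (by linarith)]
  rw [em, eq]

theorem continuousOn_lhB (h : Tr D x₀ ℓ T) (ht : 0 ≤ t) :
    ContinuousOn (lhB T ℓ) (Icc (0:ℝ) 1 ×ˢ (D ×ˢ P x₀ x₀ t)) := by
  have hW : ContinuousOn (fun p : ℝ × (M × (ℝ →ᵇ M)) => p.2.2) (Icc (0:ℝ) 1 ×ˢ (D ×ˢ P x₀ x₀ t)) := by
    fun_prop
  have hX : ContinuousOn (fun p : ℝ × (M × (ℝ →ᵇ M)) => p.2.1) (Icc (0:ℝ) 1 ×ˢ (D ×ˢ P x₀ x₀ t)) := by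
    fun_prop
  have hn := h.nonneg
  refine continuousOn_of_eval (t := t + 2 * ℓ) (by linarith) (fun p hp => ?_) fun u => ?_
  · exact P_subset_PP (lhB_mem (l := p.1) (x := p.2.1) (v := p.2.2) h ht hp.1.1 hp.2.1 hp.2.2)
  · refine ContinuousOn.congr (f := fun p : ℝ × (M × (ℝ →ᵇ M)) => lj (min 1 (2 * p.1) * (2 * ℓ))
      (fun u => T p.2.1 (max (ℓ - max 0 (2 * p.1 - 1) * ℓ) |u - ℓ|)) p.2.2 u) ?_ fun p hp => ?_
    · refine continuousOn_lj u ?_ (fun φ hφ => ?_) (fun φ hφ => ?_) fun p hp => ?_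
      · fun_prop
      · refine h.cont' hX (fun p hp => hp.2.1) ?_
        fun_prop
      · exact continuousOn_eval hW hφ
      · exact (eq_left hp.2.2 le_rfl).trans (h.qB_zero hp.2.1 _).symm
    · exact (lip_lj (h.qB_lip hp.2.1 _) hp.2.2.1
        ((eq_left hp.2.2 le_rfl).trans (h.qB_zero hp.2.1 _).symm)).mo_apply u

end basic

/-! ### The trivialisations -/

variable {M : Type} [MetricSpace M] [CompactSpace M] {x₀ : M} {ℓ : ℝ} {T : M → ℝ → M}

theorem isCompact_ovrP {D : Set M} (hD : IsClosed D) {t : ℝ} (ht : 0 ≤ t) :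
    IsCompact (ovr evz (fun t => PF x₀ t) D t) := isCompact_PFD hD ht

/-- **over `Dm`** -/
noncomputable def psM {Dm : Set M} (hD : IsClosed Dm) (h : Tr Dm x₀ ℓ T) {xm : M} (hxm : xm ∈ Dm)
    {K : M × ℝ → M} (hK : ContinuousOn K (Dm ×ˢ Icc (0:ℝ) 1))
    (hKm : ∀ x ∈ Dm, ∀ s ∈ Icc (0:ℝ) 1, K (x, s) ∈ Dm) (hK0 : ∀ x ∈ Dm, K (x, 0) = x)
    (hK1 : ∀ x ∈ Dm, K (x, 1) = xm) :
    SpIntl (ovr evz (fun t => PF x₀ t) Dm) (fun _ => ∅) (fun t => P x₀ x₀ t) (fun _ => ∅) ℓ where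
  f _ := lcut T ℓ
  g _ v := lback T ℓ (xm, v)
  f_map t ht := map_of_cont (isCompact_ovrP hD ht.le) (continuousOn_lcut h ht.le)
    fun w hw => lcut_mem h ht.le hw
  f_sub _ _ := mapsTo_empty _ _
  g_map t ht := map_of_cont (isCompact_P _ _ _)
    (continuousOn_lback' h ht.le continuousOn_const continuousOn_id (fun _ _ => hxm) fun _ hv => hv)
    fun v hv => lback_memD (p := (xm, v)) h ht.le hxm hv
  g_sub _ _ := mapsTo_empty _ _
  f_nat s t hs hst := by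
    refine hp_of_cont (isCompact_ovrP hD hs.le) (F := fun p => lcut T ℓ p.2) ?_ ?_ ?_ ?_ ?_
    · exact continuousOn_lcut' h hs.le continuousOn_snd fun p hp => hp.2
    · intro σ hσ w hw
      exact P_mono (by linarith) (lcut_mem h hs.le hw)
    · exact fun σ hσ w hw => hw.elim
    · exact fun w hw => rfl
    · exact fun w hw => rfl
  g_nat s t hs hst := by
    refine hp_of_cont (isCompact_P _ _ _) (F := fun p => lback T ℓ (xm, p.2)) ?_ ?_ ?_ ?_ ?_
    · exact continuousOn_lback' h hs.le continuousOn_const continuousOn_snd (fun _ _ => hxm)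
        fun p hp => hp.2
    · intro σ hσ v hv
      exact PFD_mono le_rfl (by linarith) (lback_memD (p := (xm, v)) h hs.le hxm hv)
    · exact fun σ hσ w hw => hw.elim
    · exact fun w hw => rfl
    · exact fun w hw => rfl
  gf t ht := by
    have hn := h.nonneg
    refine hp_of_cont (isCompact_ovrP hD ht.le)
      (F := cc (lhA T ℓ) (fun p => lback T ℓ (K (p.2 0, p.1), lcut T ℓ p.2))) ?_ ?_ ?_ ?_ ?_
    · refine cc_cont (continuousOn_lhA h ht.le) ?_ fun w hw => ?_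
      · refine continuousOn_lback' (t := t + ℓ) h (by linarith) ?_ ?_ ?_ ?_
        · refine hK.comp ((continuousOn_eval continuousOn_snd continuousOn_const).prodMk
            continuousOn_fst) fun p hp => ⟨hp.2.2, hp.1⟩
        · exact (continuousOn_lcut h ht.le).comp continuousOn_snd fun p hp => hp.2
        · exact fun p hp => hKm _ hp.2.2 _ hp.1
        · exact fun p hp => lcut_mem h ht.le hp.2
      · rw [lhA_one h hw]
        show _ = lback T ℓ (K (w 0, 0), lcut T ℓ w)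
        rw [hK0 (w 0) hw.2]
    · intro σ hσ w hw
      refine cc_mem (fun s hs => ?_) (fun s hs => ?_) hσ
      · have h1 := lhA_mem h ht.le hs.1 hw
        exact ⟨PF_mono (by linarith) (P_subset_PF h1), by
          show (lhA T ℓ (s, w)) 0 ∈ Dm
          rw [eq_left h1 le_rfl]
          exact hw.2⟩
      · exact lback_memD (p := (K (w 0, s), lcut T ℓ w)) h (by linarith) (hKm _ hw.2 _ hs)
          (lcut_mem h ht.le hw)
    · exact fun σ hσ w hw => hw.elim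
    · intro w hw
      rw [cc_zero]
      exact lhA_zero h hw
    · intro w hw
      rw [cc_one]
      show lback T ℓ (K (w 0, 1), lcut T ℓ w) = _
      rw [hK1 (w 0) hw.2]
      rfl
  fg t ht := by
    have hn := h.nonneg
    refine hp_of_cont (isCompact_P _ _ _) (F := fun p => lhB T ℓ (p.1, (xm, p.2))) ?_ ?_ ?_ ?_ ?_
    · exact (continuousOn_lhB h ht.le).comp (by fun_prop) fun p hp => ⟨hp.1, hxm, hp.2⟩
    · intro σ hσ v hv
      exact P_mono (by linarith) (lhB_mem h ht.le hσ.1 hxm hv)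
    · exact fun σ hσ w hw => hw.elim
    · exact fun v hv => lhB_zero h hxm hv
    · exact fun v hv => lhB_one h ht.le hxm hv

/-- **over `Dp`** -/
noncomputable def psP {n : ℕ} (C : Caps n M x₀) (h : Tr C.Dp x₀ ℓ T) :
    SpIntl (ovr evz (fun t => PF x₀ t) C.Dp) (ovr evz (fun t => PF x₀ t) (C.Dp ∩ C.Dm))
      (fun t => cub n (P x₀ x₀ t)) (fun t => bdc n (P x₀ x₀ t)) ℓ where
  f _ w := enc n (lcut T ℓ w) (C.φ (w 0))
  g _ z := lback T ℓ (C.ψ (dec2 n z), dec1 n z)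
  f_map t ht := by
    refine map_of_cont (isCompact_ovrP C.closed_p ht.le) ?_ fun w hw => ?_
    · exact enc_cont n (continuousOn_lcut h ht.le)
        (C.φ_cont.comp (continuousOn_eval continuousOn_id continuousOn_const) fun w hw => hw.2)
    · rw [mem_cub, dec1_enc, dec2_enc]
      exact ⟨lcut_mem h ht.le hw, C.φ_mem _ hw.2⟩
  f_sub t ht := by
    intro w hw
    have hw' : w ∈ PFD x₀ C.Dp t := ⟨hw.1, hw.2.1⟩
    rw [mem_bdc, mem_cub, dec1_enc, dec2_enc]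
    exact ⟨⟨lcut_mem h ht.le hw', C.φ_mem _ hw.2.1⟩, (C.bdry _ hw.2.1).1 hw.2.2⟩
  g_map t ht := by
    refine map_of_cont (isCompact_cub n (isCompact_P _ _ _)) ?_ fun z hz => ?_
    · refine continuousOn_lback' h ht.le ?_ (dec1_cont n).continuousOn
        (fun z hz => C.ψ_mem _ ((mem_cub n).1 hz).2) fun z hz => ((mem_cub n).1 hz).1
      exact C.ψ_cont.comp (dec2_cont n).continuousOn fun z hz => ((mem_cub n).1 hz).2
    · exact lback_memD (p := (C.ψ (dec2 n z), dec1 n z)) h ht.le (C.ψ_mem _ ((mem_cub n).1 hz).2)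
        ((mem_cub n).1 hz).1
  g_sub t ht := by
    intro z hz
    obtain ⟨h1, h2⟩ := (mem_bdc n).1 hz
    obtain ⟨h3, h4⟩ := (mem_cub n).1 h1
    have h5 := C.ψ_mem _ h4
    have h6 := lback_memD (p := (C.ψ (dec2 n z), dec1 n z)) h ht.le h5 h3
    refine ⟨h6.1, h6.2, ?_⟩
    show lback T ℓ (C.ψ (dec2 n z), dec1 n z) 0 ∈ C.Dm
    rw [lback_zero (p := (C.ψ (dec2 n z), dec1 n z)) h ht.le h5 h3, C.bdry _ h5, C.φψ _ h4]
    exact h2
  f_nat s t hs hst := by
    have hc : ContinuousOn (fun p : ℝ × (ℝ →ᵇ M) => enc n (lcut T ℓ p.2)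
        (C.φ (p.2 0))) (Icc (0:ℝ) 1 ×ˢ ovr evz (fun t => PF x₀ t) C.Dp s) := by
      refine enc_cont n ?_ (C.φ_cont.comp (continuousOn_eval continuousOn_snd continuousOn_const)
        fun p hp => hp.2.2)
      exact continuousOn_lcut' h hs.le continuousOn_snd fun p hp => hp.2
    have hm : ∀ w ∈ PFD x₀ C.Dp s, lcut T ℓ w ∈ P x₀ x₀ (t + ℓ) := fun w hw =>
      P_mono (by linarith) (lcut_mem h hs.le hw)
    refine hp_of_cont (isCompact_ovrP C.closed_p hs.le) hc ?_ ?_ ?_ ?_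
    · intro σ hσ w hw
      rw [mem_cub, dec1_enc, dec2_enc]
      exact ⟨hm w hw, C.φ_mem _ hw.2⟩
    · intro σ hσ w hw
      rw [mem_bdc, mem_cub, dec1_enc, dec2_enc]
      exact ⟨⟨hm w ⟨hw.1, hw.2.1⟩, C.φ_mem _ hw.2.1⟩, (C.bdry _ hw.2.1).1 hw.2.2⟩
    · exact fun w hw => rfl
    · exact fun w hw => rfl
  g_nat s t hs hst := by
    have hc : ContinuousOn (fun p : ℝ × Cu (ℝ →ᵇ M) n => lback T ℓ
        (C.ψ (dec2 n p.2), dec1 n p.2)) (Icc (0:ℝ) 1 ×ˢ cub n (P x₀ x₀ s)) := by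
      refine continuousOn_lback' h hs.le ?_ ((dec1_cont n).comp_continuousOn continuousOn_snd) ?_ ?_
      · exact C.ψ_cont.comp ((dec2_cont n).comp_continuousOn continuousOn_snd)
          fun p hp => ((mem_cub n).1 hp.2).2
      · exact fun p hp => C.ψ_mem _ ((mem_cub n).1 hp.2).2
      · exact fun p hp => ((mem_cub n).1 hp.2).1
    have hm : ∀ z ∈ cub n (P x₀ x₀ s), lback T ℓ (C.ψ (dec2 n z), dec1 n z) ∈
          P (C.ψ (dec2 n z)) x₀ (t + ℓ) := fun z hz =>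
      P_mono (by linarith) (lback_mem (p := (C.ψ (dec2 n z), dec1 n z)) h
        hs.le (C.ψ_mem _ ((mem_cub n).1 hz).2) ((mem_cub n).1 hz).1)
    refine hp_of_cont (isCompact_cub n (isCompact_P _ _ _)) hc ?_ ?_ ?_ ?_
    · intro σ hσ z hz
      refine ⟨P_subset_PF (hm z hz), ?_⟩
      show lback T ℓ (C.ψ (dec2 n z), dec1 n z) 0 ∈ C.Dp
      rw [eq_left (hm z hz) le_rfl]
      exact C.ψ_mem _ ((mem_cub n).1 hz).2
    · intro σ hσ z hz
      obtain ⟨h1, h2⟩ := (mem_bdc n).1 hz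
      obtain ⟨h3, h4⟩ := (mem_cub n).1 h1
      refine ⟨P_subset_PF (hm z h1), ?_⟩
      show lback T ℓ (C.ψ (dec2 n z), dec1 n z) 0 ∈ C.Dp ∩ C.Dm
      rw [eq_left (hm z h1) le_rfl]
      refine ⟨C.ψ_mem _ h4, ?_⟩
      rw [C.bdry _ (C.ψ_mem _ h4), C.φψ _ h4]
      exact h2
    · exact fun z hz => rfl
    · exact fun z hz => rfl
  gf t ht := by
    have hn := h.nonneg
    have hm : ∀ σ ∈ Icc (0:ℝ) 1, ∀ w ∈ PFD x₀ C.Dp t, lhA T ℓ (σ, w) ∈ P (w 0) x₀ (t + ℓ + ℓ) :=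
      fun σ hσ w hw => P_mono (by linarith) (lhA_mem h ht.le hσ.1 hw)
    refine hp_of_cont (isCompact_ovrP C.closed_p ht.le) (F := lhA T ℓ) (continuousOn_lhA h ht.le)
      ?_ ?_ ?_ ?_
    · intro σ hσ w hw
      refine ⟨P_subset_PF (hm σ hσ w hw), ?_⟩
      show lhA T ℓ (σ, w) 0 ∈ C.Dp
      rw [eq_left (hm σ hσ w hw) le_rfl]
      exact hw.2
    · intro σ hσ w hw
      have hw' : w ∈ PFD x₀ C.Dp t := ⟨hw.1, hw.2.1⟩
      refine ⟨P_subset_PF (hm σ hσ w hw'), ?_⟩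
      show lhA T ℓ (σ, w) 0 ∈ C.Dp ∩ C.Dm
      rw [eq_left (hm σ hσ w hw') le_rfl]
      exact hw.2
    · exact fun w hw => lhA_zero h hw
    · intro w hw
      rw [lhA_one h hw]
      show _ = lback T ℓ (C.ψ (dec2 n (enc n (lcut T ℓ w) (C.φ (w 0)))),
        dec1 n (enc n (lcut T ℓ w) (C.φ (w 0))))
      rw [dec1_enc, dec2_enc, C.ψφ (w 0) hw.2]
  fg t ht := by
    have hn := h.nonneg
    have hc : ContinuousOn (fun p : ℝ × Cu (ℝ →ᵇ M) n => enc n
        (lhB T ℓ (p.1, (C.ψ (dec2 n p.2), dec1 n p.2))) (dec2 n p.2))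
        (Icc (0:ℝ) 1 ×ˢ cub n (P x₀ x₀ t)) := by
      have hd2 : ContinuousOn (fun p : ℝ × Cu (ℝ →ᵇ M) n => dec2 n p.2)
          (Icc (0:ℝ) 1 ×ˢ cub n (P x₀ x₀ t)) := (dec2_cont n).comp_continuousOn continuousOn_snd
      have hd1 : ContinuousOn (fun p : ℝ × Cu (ℝ →ᵇ M) n => dec1 n p.2)
          (Icc (0:ℝ) 1 ×ˢ cub n (P x₀ x₀ t)) := (dec1_cont n).comp_continuousOn continuousOn_snd
      refine enc_cont n ?_ hd2
      refine (continuousOn_lhB h ht.le).comp (continuousOn_fst.prodMk ((C.ψ_cont.comp hd2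
        fun p hp => ((mem_cub n).1 hp.2).2).prodMk hd1)) fun p hp => ?_
      exact ⟨hp.1, C.ψ_mem _ ((mem_cub n).1 hp.2).2, ((mem_cub n).1 hp.2).1⟩
    have hm : ∀ σ ∈ Icc (0:ℝ) 1, ∀ z ∈ cub n (P x₀ x₀ t),
        lhB T ℓ (σ, (C.ψ (dec2 n z), dec1 n z)) ∈ P x₀ x₀ (t + ℓ + ℓ) := fun σ hσ z hz =>
      P_mono (by linarith) (lhB_mem h ht.le hσ.1 (C.ψ_mem _ ((mem_cub n).1 hz).2) ((mem_cub n).1 hz).1)
    refine hp_of_cont (isCompact_cub n (isCompact_P _ _ _)) hc ?_ ?_ ?_ ?_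
    · intro σ hσ z hz
      rw [mem_cub, dec1_enc, dec2_enc]
      exact ⟨hm σ hσ z hz, ((mem_cub n).1 hz).2⟩
    · intro σ hσ z hz
      obtain ⟨h1, h2⟩ := (mem_bdc n).1 hz
      rw [mem_bdc, mem_cub, dec1_enc, dec2_enc]
      exact ⟨⟨hm σ hσ z h1, ((mem_cub n).1 h1).2⟩, h2⟩
    · intro z hz
      obtain ⟨h3, h4⟩ := (mem_cub n).1 hz
      show enc n (lhB T ℓ (0, (C.ψ (dec2 n z), dec1 n z))) (dec2 n z) = z
      rw [lhB_zero h (C.ψ_mem _ h4) h3, enc_dec]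
    · intro z hz
      obtain ⟨h3, h4⟩ := (mem_cub n).1 hz
      show enc n (lhB T ℓ (1, (C.ψ (dec2 n z), dec1 n z))) (dec2 n z) =
        enc n (lcut T ℓ (lback T ℓ (C.ψ (dec2 n z), dec1 n z)))
          (C.φ (lback T ℓ (C.ψ (dec2 n z), dec1 n z) 0))
      rw [lhB_one h ht.le (C.ψ_mem _ h4) h3, lback_zero (p := (C.ψ (dec2 n z), dec1 n z)) h ht.le
        (C.ψ_mem _ h4) h3, C.φψ _ h4]

/-- **The trivialisations** of the start-point path fibration, from given tracks. -/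
noncomputable def ptrivOf {n : ℕ} (C : Caps n M x₀) {Tp Tm : M → ℝ → M} (hp : Tr C.Dp x₀ ℓ Tp)
    (hm : Tr C.Dm x₀ ℓ Tm) : Triv n (evz (M := M)) (fun t => PF x₀ t) (fun t => P x₀ x₀ t) ℓ where
  c0 := hp.nonneg
  Dp := C.Dp
  Dm := C.Dm
  closed_p := C.closed_p
  closed_m := C.closed_m
  union := C.union
  ev_cont := by unfold evz; fun_prop
  X_comp t ht := isCompact_PF x₀ ht.le
  X_mono s t _ h := PF_mono h
  Om_comp t _ := isCompact_P _ _ _
  Om_mono s t _ h := P_mono h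
  tm := psM C.closed_m hm C.xm_mem C.Km_cont C.Km_mem C.Km_zero C.Km_one
  tp := psP C hp

/-- **The trivialisations** of the start-point path fibration of a space with caps. -/
theorem exists_ptriv {n : ℕ} (C : Caps n M x₀) {ρ : ℝ} (hρ : 0 < ρ) (hU : LS.UniqSeg M ρ) :
    ∃ c, Nonempty (Triv n (evz (M := M)) (fun t => PF x₀ t) (fun t => P x₀ x₀ t) c) := by
  obtain ⟨ℓ, Tp, Tm, hp, hm⟩ := exists_tracks₂ C hρ hU
  exact ⟨ℓ, ⟨ptrivOf C hp hm⟩⟩

end Vale.Agent.P216.H456
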