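import Vale.Agent.P216.H456.PTriv

/-!
# P216-B, [PCON]: contractible sets; the path space `PF x₀ t` is contractible

* `ha_subsingleton`: a set `X` with a uniformly continuous contraction has no cohomology in
  positive degrees; `ha_zero_eq`: in degree `0` it is spanned by the class of `1`.
* `sh`: `w ↦ (u ↦ w (max u 0 + s))`; `ptHtpy`: contraction of `PF x₀ t` to the constant path;
  `PF_subsingleton`, `PF_zero`.
-/

set_option linter.all false

namespace Vale.Agent.P216.H456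

open Set Filter Topology BoundedContinuousFunction
open Vale.Agent.P216.PS
open Vale.Agent.P216.MV337
open Vale.Agent.P216.AS
open Vale.Agent.P216.H901 (tr on)

section contract

variable {k : Type} [Field k] {E : Type} [PseudoMetricSpace E]

omit [PseudoMetricSpace E] in
theorem d_const (c : k) (n : ℕ) : P265.AS.d (fun _ : Fin n → E => c) =
    fun _ => if Even n then c else 0 := by
  induction n with
  | zero =>
    funext x
    rw [P265.AS.d_zero_apply, if_pos Even.zero]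
  | succ n ih =>
    funext x
    rw [P265.AS.d_succ_apply]
    have : P265.AS.d (fun y : Fin n → E => (fun _ : Fin (n + 1) → E => c) (Matrix.vecCons (Matrix.vecHead x) y))
        (Matrix.vecTail x) = if Even n then c else 0 := congrFun ih _
    rw [this]
    by_cases h : Even n
    · rw [if_pos h, if_neg (by rw [Nat.even_add_one]; exact not_not.2 h), sub_self]
    · rw [if_neg h, if_pos (by rw [Nat.even_add_one]; exact h), sub_zero]

/-- A contraction `D` of `X` to the point `p`. -/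
theorem ha_eq_const {X : Set E} {D : ℝ → E → E} {p : E} (hD : IsHtpy (tr E) (tr E) X X D)
    (h0 : ∀ x ∈ X, D 0 x = x) (h1 : ∀ x ∈ X, D 1 x = p) (hp : p ∈ X) (q : ℕ)
    {c : (Fin (q + 1) → E) → k} (hc : c ∈ Zc (Cc (tr E) (on k) X) (Zr (tr E) (on k) X X) q) :
    ∃ hc' : (fun _ => c (fun _ => p)) ∈ Zc (Cc (tr E) (on k) X) (Zr (tr E) (on k) X X) q,
      (H.mk c hc : Ha (tr E) (on k) X q) = H.mk (fun _ => c (fun _ => p)) hc' := by
  have hm : IsMap (tr E) (tr E) X X (fun _ => p) :=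
    ⟨fun _ _ => hp, fun i => i.elim, fun ε hε => ⟨1, one_pos, fun _ _ _ _ _ => by
      rw [dist_self]; exact hε⟩⟩
  have e0 : pull (on k) hD.zero q = pull (on k) (IsMap.id_of_subset (a := tr E) le_rfl) q :=
    pull_congr _ _ h0
  have e1 : pull (on k) hD.one q = pull (on k) hm q := pull_congr _ _ h1
  have e := pull_homotopy (χ := on k) hD q
  rw [e0, e1] at e
  have e2 := LinearMap.congr_fun e (H.mk c hc)
  rw [pull_mk, pull_mk] at e2
  exact ⟨(hm.isMor_Cc le_rfl hm.mapsX).mapZ hc, e2.symm⟩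

/-- **No cohomology in positive degrees.** -/
theorem ha_subsingleton {X : Set E} {D : ℝ → E → E} {p : E} (hD : IsHtpy (tr E) (tr E) X X D)
    (h0 : ∀ x ∈ X, D 0 x = x) (h1 : ∀ x ∈ X, D 1 x = p) (hp : p ∈ X) {q : ℕ} (hq : 1 ≤ q) :
    Subsingleton (Ha (tr E) (on k) X q) := by
  have key : ∀ x : Ha (tr E) (on k) X q, x = 0 := by
    intro x
    obtain ⟨c, hc, rfl⟩ := H.exists_mk x
    obtain ⟨hc', e⟩ := ha_eq_const (k := k) hD h0 h1 hp q hc
    rw [e, H.mk_eq_zero]
    obtain ⟨r, rfl⟩ : ∃ r, q = r + 1 := ⟨q - 1, by omega⟩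
    rcases Nat.even_or_odd r with hr | hr
    · -- `q = r + 1` is odd: the cocycle condition
      obtain ⟨-, ε, hε, h3⟩ := mem_Zc_abs.1 hc'
      have h4 := h3 (fun _ => p) ⟨fun _ => hp, fun i j => by rw [dist_self]; exact hε⟩
      rw [d_const] at h4
      have h5 : Even (r + 1 + 1) := by
        rw [Nat.even_add_one, Nat.even_add_one]
        exact not_not.2 hr
      rw [if_pos h5] at h4
      have h6 : (fun _ => c (fun _ => p) : (ASK E k).K (r + 1)) = 0 := funext fun _ => h4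
      rw [h6]
      exact Submodule.zero_mem _
    · refine mem_Bc_succ.2 ⟨fun _ => c (fun _ => p), fun i => i.elim, ?_⟩
      rw [ASK_d, d_const, if_pos (by rw [Nat.even_add_one]; exact Nat.not_even_iff_odd.2 hr)]
      rw [sub_self]
      exact Submodule.zero_mem _
  exact ⟨fun a b => by rw [key a, key b]⟩

/-- **Degree zero.** -/
theorem ha_zero_eq {X : Set E} {D : ℝ → E → E} {p : E} (hD : IsHtpy (tr E) (tr E) X X D)
    (h0 : ∀ x ∈ X, D 0 x = x) (h1 : ∀ x ∈ X, D 1 x = p) (hp : p ∈ X)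
    (h1c : (fun _ => (1 : k)) ∈ Zc (Cc (tr E) (on k) X) (Zr (tr E) (on k) X X) 0)
    (x : Ha (tr E) (on k) X 0) : ∃ a : k, x = a • H.mk (fun _ => (1 : k)) h1c := by
  obtain ⟨c, hc, rfl⟩ := H.exists_mk x
  obtain ⟨hc', e⟩ := ha_eq_const (k := k) hD h0 h1 hp 0 hc
  refine ⟨c (fun _ => p), ?_⟩
  rw [e, ← H.mk_smul]
  congr 1
  funext y
  show c _ = c _ * 1
  rw [mul_one]

end contract

section path

variable {M : Type} [MetricSpace M] [CompactSpace M] {x₀ : M} {t s : ℝ} {w : ℝ →ᵇ M}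

/-- `w` from the time `s` on -/
noncomputable def sh (s : ℝ) (w : ℝ →ᵇ M) : ℝ →ᵇ M := mo fun u => w (max u 0 + s)

theorem lip_sh (hw : Lip w) (s : ℝ) : Lip fun u => w (max u 0 + s) :=
  hw.comp fun u v => by
    have e : max u 0 + s - (max v 0 + s) = max u 0 - max v 0 := by ring
    rw [e]
    exact (abs_max_sub_max_le_max _ _ _ _).trans (max_le le_rfl (by simp))

theorem sh_apply (hw : Lip w) (s u : ℝ) : sh s w u = w (max u 0 + s) := (lip_sh hw s).mo_apply u

theorem sh_mem (hs : 0 ≤ s) (hw : w ∈ PF x₀ t) : sh s w ∈ PF x₀ t := by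
  refine ⟨fun u v => ?_, fun u hu => ?_, fun u hu => ?_⟩
  · rw [sh_apply hw.1, sh_apply hw.1]
    exact lip_sh hw.1 s u v
  · rw [sh_apply hw.1, sh_apply hw.1, max_eq_right hu, max_self]
  · rw [sh_apply hw.1]
    exact hw.2.2 _ (by linarith [le_max_left u 0])

theorem sh_zero (hw : w ∈ PF x₀ t) : sh 0 w = w := by
  ext u
  rw [sh_apply hw.1, add_zero]
  rcases le_total u 0 with h | h
  · rw [max_eq_right h, hw.2.1 u h]
  · rw [max_eq_left h]

theorem sh_one (hw : w ∈ PF x₀ t) : sh t w = BoundedContinuousFunction.const ℝ x₀ := by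
  ext u
  rw [sh_apply hw.1, const_apply]
  exact hw.2.2 _ (by linarith [le_max_right u 0])

omit [CompactSpace M] in
theorem const_mem_PF (x₀ : M) (t : ℝ) : BoundedContinuousFunction.const ℝ x₀ ∈ PF x₀ t :=
  ⟨fun u v => by simp, fun _ _ => rfl, fun _ _ => rfl⟩

/-- The contraction of `PF x₀ t` to the constant path. -/
theorem ptHtpy (x₀ : M) (ht : 0 ≤ t) :
    IsHtpy (tr (ℝ →ᵇ M)) (tr (ℝ →ᵇ M)) (PF x₀ t) (PF x₀ t) (fun σ w => sh (σ * t) w) := by
  refine IsHtpy.of_continuousOn (isCompact_PF x₀ ht) ?_ (fun σ hσ w hw => ?_) fun _ _ i => i.elim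
  · refine continuousOn_of_eval ht (fun p hp => ?_) fun u => ?_
    · exact PF_subset_PP (sh_mem (mul_nonneg hp.1.1 ht) hp.2)
    · refine ContinuousOn.congr (f := fun p : ℝ × (ℝ →ᵇ M) => p.2 (max u 0 + p.1 * t)) ?_
        fun p hp => sh_apply hp.2.1 _ _
      exact continuousOn_eval continuousOn_snd (by fun_prop)
  · exact sh_mem (mul_nonneg hσ.1 ht) hw

/-- **[PCON]** -/
theorem PF_subsingleton (k : Type) [Field k] (x₀ : M) (ht : 0 ≤ t) {q : ℕ} (hq : 1 ≤ q) :
    Subsingleton (Ha (tr (ℝ →ᵇ M)) (on k) (PF x₀ t) q) :=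
  ha_subsingleton (ptHtpy x₀ ht) (fun w hw => by
    show sh (0 * t) w = w
    rw [zero_mul, sh_zero hw]) (fun w hw => by
    show sh (1 * t) w = _
    rw [one_mul, sh_one hw]) (const_mem_PF x₀ t) hq

theorem PF_zero (k : Type) [Field k] (x₀ : M) (ht : 0 ≤ t)
    (h1 : (fun _ => (1 : k)) ∈
      Zc (Cc (tr (ℝ →ᵇ M)) (on k) (PF x₀ t)) (Zr (tr (ℝ →ᵇ M)) (on k) (PF x₀ t) (PF x₀ t)) 0)
    (x : Ha (tr (ℝ →ᵇ M)) (on k) (PF x₀ t) 0) : ∃ a : k, x = a • H.mk (fun _ => (1 : k)) h1 :=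
  ha_zero_eq (ptHtpy x₀ ht) (fun w hw => by
    show sh (0 * t) w = w
    rw [zero_mul, sh_zero hw]) (fun w hw => by
    show sh (1 * t) w = _
    rw [one_mul, sh_one hw]) (const_mem_PF x₀ t) h1 x

end path

end Vale.Agent.P216.H456
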