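import Vale.Agent.P216.H892.FibO
import Vale.Agent.P216.H774D.Pwr
import Vale.Agent.P216.H754B.Rev

/-!
# P216-D, [FLE]: the plain fields of `H892.fib_of` for closed Moore paths

`X t = FL M t` (closed Moore paths of duration at most `t`), `O t = P x₀ x₀ t` (based ones),
`π = evz` (the value at `0`), `θ s` = the `m`-th power, or the reversal.
-/

set_option linter.all false

open Set BoundedContinuousFunction

namespace Vale.Agent.P216.H456

open Vale.Agent.P216.PS Vale.Agent.P216.MV337 Vale.Agent.P216.H754B Vale.Agent.P216.H774D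
open Vale.Agent.P216.E2L

section metric

variable {M : Type} [MetricSpace M]

theorem fle_monoX : Monotone fun t : ℝ => FL M t := fun _ _ h => FL_mono h

theorem fle_monoO (x₀ : M) : Monotone fun t : ℝ => P x₀ x₀ t := fun _ _ h => P_mono h

theorem fle_lip (w w' : ℝ →ᵇ M) : dist (evz w) (evz w') ≤ dist w w' :=
  dist_coe_le_dist (f := w) (g := w') 0

theorem fle_ob (x₀ : M) (t : ℝ) (w : ℝ →ᵇ M) : w ∈ P x₀ x₀ t ↔ w ∈ FL M t ∧ evz w = x₀ := by
  constructor
  · intro h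
    exact ⟨P_subset_FL h, h.2.1 0 le_rfl⟩
  · rintro ⟨h, h'⟩
    have h0 : w 0 = x₀ := h'
    have := mem_FL_iff.1 h
    rwa [h0] at this

theorem fle_ne (A : Set M) : ∀ t > (0 : ℝ), ∀ x ∈ A, ∃ w ∈ FL M t, evz w = x := fun t _ x _ =>
  ⟨cst x, P_subset_FL (cst_mem x t), rfl⟩

/-- The reversal. -/
theorem fle_rv : ∀ s > (0 : ℝ), OpE (evz (M := M)) (FL M s) (FL M (1 * s)) (rv s) := fun s _ => by
  rw [one_mul]
  exact ⟨fun _ hw => rv_mem_FL hw le_rfl,
    fun r hr => ⟨r, hr, fun w _ w' _ h => (dist_rv_le s w w').trans_lt h⟩,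
    fun _ hw => rv_zero hw le_rfl⟩

end metric

section compact

variable {M : Type} [MetricSpace M] [CompactSpace M]

theorem fle_cpt (x₀ : M) : ∀ t : ℝ, IsCompact (P x₀ x₀ t) := fun t => isCompact_P x₀ x₀ t

theorem pwr_zero_eq {m : ℕ} (hm : 1 ≤ m) {t : ℝ} (ht : 0 ≤ t) {w : ℝ →ᵇ M} (hw : w ∈ FL M t) :
    pwr t m w 0 = w 0 := by
  have h := pwr_apply ht hw m 0 hm 0 ⟨le_rfl, ht⟩
  rwa [Nat.cast_zero, zero_mul, zero_add] at h

/-- The `m`-th power. -/
theorem fle_pwr {m : ℕ} (hm : 1 ≤ m) :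
    ∀ s > (0 : ℝ), OpE (evz (M := M)) (FL M s) (FL M (m * s)) (pwr s m) := fun s hs =>
  ⟨fun _ hw => pwr_mem hs.le hw m,
    fun r hr => ⟨r, hr, fun _ hw _ hw' h => (dist_pwr hs.le hw hw' m).trans_lt h⟩,
    fun _ hw => pwr_zero_eq hm hs.le hw⟩

end compact

end Vale.Agent.P216.H456
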