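import Vale.Agent.P216.H311.PathSp

/-!
# P216, Theorem B: uniform continuity of the splicing with a constant path (`helper456`)

* `cut_unif`: `w` up to time `σ`, then the segment from `w σ` to `y`: the modulus of continuity does
  not depend on the length of the paths;
* `left_unif`: the segment from `y` to `w τ`, then `w` from time `τ` on;
* `splice_cst_mem`, `cst_splice_mem`: the path spaces.
-/

open Set Filter Topology BoundedContinuousFunction

namespace Vale.Agent.P216.PS

variable {M : Type*} [MetricSpace M] [CompactSpace M] {a b y : M} {ρ r σ τ T u : ℝ}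
  {w w' : ℝ →ᵇ M}

/-- The segments to a fixed point, uniformly. -/
theorem seg_unif (h : LS.UniqSeg M ρ) (hrρ : r < ρ) (y : M) {ε : ℝ} (hε : 0 < ε) :
    ∃ η > 0, ∀ a a' : M, ∀ s s' : ℝ, dist a y ≤ r → dist a' y ≤ r → s ∈ Icc (0 : ℝ) 1 →
      s' ∈ Icc (0 : ℝ) 1 → dist a a' < η → |s - s'| < η →
      dist (LS.seg a y s) (LS.seg a' y s') < ε ∧ dist (LS.seg y a s) (LS.seg y a' s') < ε := by
  set K : Set (M × ℝ) := {p | dist p.1 y ≤ r ∧ p.2 ∈ Icc (0 : ℝ) 1} with hK
  have hKc : IsCompact K := by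
    have h1 : K = {a : M | dist a y ≤ r} ×ˢ Icc (0 : ℝ) 1 := rfl
    rw [h1]
    exact (isClosed_le (continuous_id.dist continuous_const) continuous_const).isCompact.prod
      isCompact_Icc
  have c1 : ContinuousOn (fun p : M × ℝ => LS.seg p.1 y p.2) K :=
    LS.ContinuousOn.seg h continuous_fst.continuousOn continuousOn_const
      continuous_snd.continuousOn (fun p hp => hp.1.trans_lt hrρ) fun p hp => hp.2
  have c2 : ContinuousOn (fun p : M × ℝ => LS.seg y p.1 p.2) K :=
    LS.ContinuousOn.seg h continuousOn_const continuous_fst.continuousOn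
      continuous_snd.continuousOn (fun p hp => by rw [dist_comm]; exact hp.1.trans_lt hrρ)
      fun p hp => hp.2
  obtain ⟨η₁, h1, u1⟩ := Metric.uniformContinuousOn_iff.1
    (hKc.uniformContinuousOn_of_continuous c1) ε hε
  obtain ⟨η₂, h2, u2⟩ := Metric.uniformContinuousOn_iff.1
    (hKc.uniformContinuousOn_of_continuous c2) ε hε
  refine ⟨min η₁ η₂, lt_min h1 h2, fun a a' s s' ha ha' hs hs' hd hsd => ?_⟩
  have hd' : dist (a, s) (a', s') < min η₁ η₂ := by
    rw [Prod.dist_eq, Real.dist_eq]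
    exact max_lt hd hsd
  exact ⟨u1 (a, s) ⟨ha, hs⟩ (a', s') ⟨ha', hs'⟩ (hd'.trans_le (min_le_left _ _)),
    u2 (a, s) ⟨ha, hs⟩ (a', s') ⟨ha', hs'⟩ (hd'.trans_le (min_le_right _ _))⟩

omit [CompactSpace M] in
theorem dist_eval_le (hw' : Lip w') (u v : ℝ) : dist (w u) (w' v) ≤ dist w w' + |u - v| :=
  (dist_triangle _ (w' u) _).trans
    (add_le_add (BoundedContinuousFunction.dist_coe_le_dist u) (hw' u v))

/-- The clamped time of the segment. -/
noncomputable def clp (r σ u : ℝ) : ℝ := max 0 (min 1 ((u - σ) / r))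

theorem clp_mem (r σ u : ℝ) : clp r σ u ∈ Icc (0 : ℝ) 1 :=
  ⟨le_max_left _ _, max_le zero_le_one (min_le_left _ _)⟩

theorem clp_sub_le (hr : 0 < r) (σ σ' u : ℝ) : |clp r σ u - clp r σ' u| ≤ |σ - σ'| / r := by
  have h1 : |clp r σ u - clp r σ' u| ≤ |(u - σ) / r - (u - σ') / r| := by
    have h2 : LipschitzWith 1 fun x : ℝ => max 0 (min 1 x) :=
      (LipschitzWith.id.const_min 1).const_max 0
    have h3 := h2.dist_le_mul ((u - σ) / r) ((u - σ') / r)
    rwa [NNReal.coe_one, one_mul, Real.dist_eq, Real.dist_eq] at h3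
  refine h1.trans (le_of_eq ?_)
  rw [← sub_div, abs_div, abs_of_pos hr]
  congr 1
  rw [abs_sub_comm σ σ']
  congr 1
  ring

omit [CompactSpace M] in
theorem spl_cst (hr : 0 < r) (hu : σ ≤ u) :
    spl r w (cst y) σ 0 u = LS.seg (w σ) y (clp r σ u) := by
  rcases le_total u (σ + r) with h1 | h1
  · rw [spl_mid hu h1, cst_apply, clp, min_eq_right ((div_le_one hr).2 (by linarith)),
      max_eq_right (div_nonneg (by linarith) hr.le)]
  · rw [spl_right hr h1, cst_apply, clp, min_eq_left ((one_le_div hr).2 (by linarith)),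
      max_eq_right zero_le_one, LS.seg_one]

/-- After the cut, near the time of the cut. -/
theorem dist_spl_cst_le (h : LS.UniqSeg M ρ) (hr : 0 < r) (hrρ : r < ρ) (hd : dist (w σ) y ≤ r)
    (hu : σ ≤ u) : dist (w σ) (spl r w (cst y) σ 0 u) ≤ u - σ := by
  rw [spl_cst hr hu, LS.dist_left_seg h (hd.trans_lt hrρ) (clp_mem r σ u)]
  have h1 : clp r σ u ≤ (u - σ) / r :=
    max_le (div_nonneg (by linarith) hr.le) (min_le_right _ _)
  calc clp r σ u * dist (w σ) y ≤ (u - σ) / r * r :=
        mul_le_mul h1 hd dist_nonneg (div_nonneg (by linarith) hr.le)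
    _ = u - σ := div_mul_cancel₀ _ hr.ne'

/-- **The cut at a fixed point, uniformly in the length of the paths.** -/
theorem cut_unif (h : LS.UniqSeg M ρ) (hr : 0 < r) (hrρ : r < ρ) (y : M) {ε : ℝ} (hε : 0 < ε) :
    ∃ δ > 0, ∀ w w' : ℝ →ᵇ M, Lip w → Lip w' → ∀ σ σ' : ℝ, dist (w σ) y ≤ r →
      dist (w' σ') y ≤ r → dist w w' < δ → |σ - σ'| < δ →
      dist (splice r w (cst y) σ 0) (splice r w' (cst y) σ' 0) < ε := by
  obtain ⟨η, hη, hu⟩ := seg_unif h hrρ y (ε := ε / 2) (by positivity)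
  refine ⟨min (min (η / 2) (η * r)) (ε / 8), by positivity, fun w w' hw hw' σ σ' hd hd' hdist hσ
    => ?_⟩
  set δ : ℝ := min (min (η / 2) (η * r)) (ε / 8) with hδ
  have d1 : δ ≤ η / 2 := (min_le_left _ _).trans (min_le_left _ _)
  have d2 : δ ≤ η * r := (min_le_left _ _).trans (min_le_right _ _)
  have d3 : δ ≤ ε / 8 := min_le_right _ _
  -- between the two cuts
  have key : ∀ (v v' : ℝ →ᵇ M), Lip v → Lip v' → ∀ s s' : ℝ, dist (v s) y ≤ r →
      dist v v' < δ → |s - s'| < δ → ∀ u, s ≤ u → u ≤ s' →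
      dist (spl r v (cst y) s 0 u) (spl r v' (cst y) s' 0 u) ≤ ε / 2 := by
    intro v v' hv hv' s s' hvy hvv hss u h1 h2
    have e0 : s' - s < δ := by
      rw [abs_sub_comm] at hss
      exact (le_abs_self _).trans_lt hss
    have e1 := dist_spl_cst_le h hr hrρ hvy h1
    have e2 : dist (v s) (v' u) ≤ dist v v' + |s - u| := dist_eval_le hv' s u
    rw [abs_sub_comm, abs_of_nonneg (sub_nonneg.2 h1)] at e2
    rw [spl_left (w := v') h2]
    have e3 := dist_triangle_left (spl r v (cst y) s 0 u) (v' u) (v s)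
    linarith
  have hmain : ∀ u, dist (splice r w (cst y) σ 0 u) (splice r w' (cst y) σ' 0 u) ≤ ε / 2 := by
    intro u
    rw [splice_apply h hr hrρ hw (lip_cst y) hd, splice_apply h hr hrρ hw' (lip_cst y) hd']
    rcases le_total u σ with h1 | h1
    · rcases le_total u σ' with h2 | h2
      · rw [spl_left h1, spl_left h2]
        have := BoundedContinuousFunction.dist_coe_le_dist (f := w) (g := w') u
        linarith
      · rw [dist_comm]
        rw [dist_comm] at hdist
        rw [abs_sub_comm] at hσ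
        exact key w' w hw' hw σ' σ hd' hdist hσ u h2 h1
    · rcases le_total u σ' with h2 | h2
      · exact key w w' hw hw' σ σ' hd hdist hσ u h1 h2
      · rw [spl_cst hr h1, spl_cst hr h2]
        refine (hu (w σ) (w' σ') (clp r σ u) (clp r σ' u) hd hd' (clp_mem _ _ _)
          (clp_mem _ _ _) ?_ ?_).1.le
        · have := dist_eval_le (w := w) hw' σ σ'
          linarith
        · refine (clp_sub_le hr σ σ' u).trans_lt ?_
          rw [div_lt_iff₀ hr]
          linarith
  have h5 : dist (splice r w (cst y) σ 0) (splice r w' (cst y) σ' 0) ≤ ε / 2 :=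
    (BoundedContinuousFunction.dist_le (by positivity)).2 hmain
  linarith

/-- **The path which starts from a fixed point, uniformly in the length of the paths.** -/
theorem left_unif (h : LS.UniqSeg M ρ) (hr : 0 < r) (hrρ : r < ρ) (y : M) {ε : ℝ} (hε : 0 < ε) :
    ∃ δ > 0, ∀ w w' : ℝ →ᵇ M, Lip w → Lip w' → ∀ τ τ' : ℝ, dist (w τ) y ≤ r →
      dist (w' τ') y ≤ r → dist w w' < δ → |τ - τ'| < δ →
      dist (splice r (cst y) w 0 τ) (splice r (cst y) w' 0 τ') < ε := by
  obtain ⟨η, hη, hu⟩ := seg_unif h hrρ y (ε := ε / 2) (by positivity)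
  refine ⟨min (η / 2) (ε / 4), by positivity, fun w w' hw hw' τ τ' hd hd' hdist hτ => ?_⟩
  set δ : ℝ := min (η / 2) (ε / 4) with hδ
  have d1 : δ ≤ η / 2 := min_le_left _ _
  have d3 : δ ≤ ε / 4 := min_le_right _ _
  have hd0 : dist (cst y 0) (w τ) ≤ r := by rw [cst_apply, dist_comm]; exact hd
  have hd0' : dist (cst y 0) (w' τ') ≤ r := by rw [cst_apply, dist_comm]; exact hd'
  have hmain : ∀ u, dist (splice r (cst y) w 0 τ u) (splice r (cst y) w' 0 τ' u) ≤ ε / 2 := by
    intro u
    rw [splice_apply h hr hrρ (lip_cst y) hw hd0, splice_apply h hr hrρ (lip_cst y) hw' hd0']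
    rcases le_total u 0 with h1 | h1
    · rw [spl_left h1, spl_left h1, dist_self]
      positivity
    rcases le_total u (0 + r) with h2 | h2
    · rw [spl_mid h1 h2, spl_mid h1 h2, cst_apply]
      have hs : (u - 0) / r ∈ Icc (0 : ℝ) 1 :=
        ⟨div_nonneg (by linarith) hr.le, (div_le_one hr).2 (by linarith)⟩
      refine (hu (w τ) (w' τ') _ _ hd hd' hs hs ?_ (by rw [sub_self, abs_zero]; exact hη)).2.le
      have := dist_eval_le (w := w) hw' τ τ'
      linarith
    · rw [spl_right hr h2, spl_right hr h2]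
      have := dist_eval_le (w := w) hw' (τ + (u - 0 - r)) (τ' + (u - 0 - r))
      rw [add_sub_add_right_eq_sub] at this
      linarith
  have h5 : dist (splice r (cst y) w 0 τ) (splice r (cst y) w' 0 τ') ≤ ε / 2 :=
    (BoundedContinuousFunction.dist_le (by positivity)).2 hmain
  linarith

/-- The cut path. -/
theorem splice_cst_mem (h : LS.UniqSeg M ρ) (hr : 0 < r) (hrρ : r < ρ) (hw : w ∈ P a b T) (hσ : 0 ≤ σ)
    (hd : dist (w σ) y ≤ r) : splice r w (cst y) σ 0 ∈ P a y (σ + r) := by
  have h1 := splice_mem (t := 0) h hr hrρ (lip_of_mem hw) (lip_cst y)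
    (show dist (w σ) (cst y 0) ≤ r by rw [cst_apply]; exact hd) hσ le_rfl
    (fun u hu => eq_left hw hu) (b := y) fun u _ => cst_apply y u
  rwa [sub_self, add_zero] at h1

/-- The path which starts from a fixed point. -/
theorem cst_splice_mem (h : LS.UniqSeg M ρ) (hr : 0 < r) (hrρ : r < ρ) (hw : w ∈ P a b T) (hτ : τ ≤ T)
    (hd : dist (w τ) y ≤ r) : splice r (cst y) w 0 τ ∈ P y b (r + (T - τ)) := by
  have h1 := splice_mem (t := T) h hr hrρ (lip_cst y) (lip_of_mem hw)
    (show dist (cst y 0) (w τ) ≤ r by rw [cst_apply, dist_comm]; exact hd) le_rfl hτ (a := y)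
    (fun u _ => cst_apply y u) fun u hu => eq_right hw hu
  rwa [zero_add] at h1

end Vale.Agent.P216.PS
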