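import Vale.Agent.P216.H456.SFam
import Vale.Agent.P216.H901.Refl

/-!
# P216-B (n = 1 mod 4): the collapse is equivariant under the reflections `rf i.castSucc`

* `exists_collR m : ∃ D b, CollR m D b`: `Coll m D b` with `D s (rf i.castSucc y) = rf i.castSucc (D s y)`
  for all `i : Fin m`, `s`, `y`, and `rf i.castSucc b = b`.
* `topv_rf : topv (rf i v) = rf i.castSucc (topv v)`.
* `xx_rf`: `xx C D (rf i v) = f (xx C D v)` if `C.ψ (rf i.castSucc y) = f (C.ψ y)` on the cube.
-/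

set_option linter.all false

namespace Vale.Agent.P216.H456

open Set
open Vale.Agent.P216.MV337
open Vale.Agent.P216.H901 (rf rf_same rf_ne rf_rf rf_snoc_castSucc)
open Vale.Agent.P216.H962 (Bg Jc bJ Out)
open Vale.Agent.P216.H923B (cc uu el psi rw0 nz)

/-- change of the sign of the coordinate `i` -/
def sg {n : ℕ} (i : Fin n) (x : Fin n → ℝ) : Fin n → ℝ := Function.update x i (-x i)

theorem sg_same {n : ℕ} (i : Fin n) (x : Fin n → ℝ) : sg i x i = -x i := Function.update_self ..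

theorem sg_ne {n : ℕ} {i j : Fin n} (h : j ≠ i) (x : Fin n → ℝ) : sg i x j = x j :=
  Function.update_of_ne h ..

theorem norm_sg {n : ℕ} (i : Fin n) (x : Fin n → ℝ) : ‖sg i x‖ = ‖x‖ := by
  have key : ∀ x : Fin n → ℝ, ‖sg i x‖ ≤ ‖x‖ := fun x => by
    rw [pi_norm_le_iff_of_nonneg (norm_nonneg x)]
    intro j
    by_cases h : j = i
    · subst h
      rw [sg_same, norm_neg]
      exact norm_le_pi_norm x j
    · rw [sg_ne h]
      exact norm_le_pi_norm x j
  refine le_antisymm (key x) ?_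
  have h2 := key (sg i x)
  have e : sg i (sg i x) = x := by
    funext j
    by_cases h : j = i
    · subst h
      rw [sg_same, sg_same, neg_neg]
    · rw [sg_ne h, sg_ne h]
  rwa [e] at h2

theorem cc_rf {n : ℕ} (i : Fin n) (y : Fin n → ℝ) : cc (rf i y) = sg i (cc y) := by
  funext j
  by_cases h : j = i
  · subst h
    rw [sg_same]
    show 2 * rf j y j - 1 = -(2 * y j - 1)
    rw [rf_same]
    ring
  · rw [sg_ne h]
    show 2 * rf i y j - 1 = 2 * y j - 1
    rw [rf_ne h]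

theorem uu_sg {n : ℕ} (i : Fin n) (x : Fin n → ℝ) : uu (sg i x) = rf i (uu x) := by
  funext j
  by_cases h : j = i
  · subst h
    rw [rf_same]
    show (sg j x j + 1) / 2 = 1 - (x j + 1) / 2
    rw [sg_same]
    ring
  · rw [rf_ne h]
    show (sg i x j + 1) / 2 = (x j + 1) / 2
    rw [sg_ne h]

theorem sg_smul {n : ℕ} (i : Fin n) (a : ℝ) (x : Fin n → ℝ) : sg i (a • x) = a • sg i x := by
  funext j
  by_cases h : j = i
  · subst h
    rw [Pi.smul_apply, sg_same, sg_same, Pi.smul_apply, smul_eq_mul, smul_eq_mul, mul_neg]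
  · rw [Pi.smul_apply, sg_ne h, sg_ne h, Pi.smul_apply]

theorem sg_sub {n : ℕ} (i : Fin n) (x y : Fin n → ℝ) : sg i (x - y) = sg i x - sg i y := by
  funext j
  by_cases h : j = i
  · subst h
    rw [Pi.sub_apply, sg_same, sg_same, sg_same, Pi.sub_apply]
    ring
  · rw [Pi.sub_apply, sg_ne h, sg_ne h, sg_ne h, Pi.sub_apply]

theorem sg_el {m : ℕ} (i : Fin m) : sg i.castSucc (el m) = el m := by
  funext j
  by_cases h : j = i.castSucc
  · subst h
    rw [sg_same, el, Pi.single_eq_of_ne (Fin.castSucc_lt_last i).ne, neg_zero]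
  · rw [sg_ne h]

theorem psi_sg {m : ℕ} (i : Fin m) (x : Fin (m + 1) → ℝ) : psi (sg i.castSucc x) = psi x := by
  unfold psi
  have e : sg i.castSucc x - el m = sg i.castSucc (x - el m) := by rw [sg_sub, sg_el]
  rw [e, norm_sg]

theorem rw0_sg {m : ℕ} (i : Fin m) (s : ℝ) (x : Fin (m + 1) → ℝ) :
    rw0 s (sg i.castSucc x) = sg i.castSucc (rw0 s x) := by
  unfold rw0
  rw [psi_sg, sg_sub, sg_smul, sg_smul, sg_el]

theorem nz_sg {n : ℕ} (i : Fin n) (x : Fin n → ℝ) : nz (sg i x) = sg i (nz x) := by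
  unfold nz
  rw [norm_sg, sg_smul]

/-- The collapse, with its equivariance. -/
structure CollR (m : ℕ) (D : ℝ → (Fin (m + 1) → ℝ) → (Fin (m + 1) → ℝ)) (b : Fin (m + 1) → ℝ) :
    Prop extends Coll m D b where
  rfD : ∀ (i : Fin m) (s : ℝ) (y : Fin (m + 1) → ℝ), D s (rf i.castSucc y) = rf i.castSucc (D s y)
  rfb : ∀ i : Fin m, rf i.castSucc b = b

/-- **The collapse is equivariant.** -/
theorem exists_collR (m : ℕ) : ∃ D b, CollR m D b := by
  refine ⟨fun s y => uu (nz (rw0 s (cc y))), uu (-el m), ⟨⟨?_, ?_, ?_, ?_, ?_⟩, ?_, ?_⟩⟩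
  · exact H923B.uu_mem_of_norm (by rw [norm_neg, H923B.norm_el])
  · refine H923B.continuous_uu.comp_continuousOn (H923B.continuousOn_nz.comp ?_ ?_)
    · exact (H923B.continuous_rw0.comp
        (continuous_fst.prodMk (H923B.continuous_cc.comp continuous_snd))).continuousOn
    · rintro ⟨s, y⟩ ⟨hs, hy⟩
      exact H923B.rw0_ne hs (H923B.norm_cc_of_mem hy)
  · intro s hs y hy
    exact H923B.uu_mem_of_norm (H923B.norm_nz (H923B.rw0_ne hs (H923B.norm_cc_of_mem hy)))
  · intro y hy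
    change uu (nz (rw0 0 (cc y))) = y
    rw [rw0, zero_mul, sub_zero, one_smul, zero_smul, sub_zero,
      H923B.nz_of_norm (H923B.norm_cc_of_mem hy), H923B.uu_cc]
  · intro y hy h
    change uu (nz (rw0 1 (cc y))) = uu (-el m)
    rw [rw0, H923B.psi_cc_eq_one hy h, mul_one, sub_self, zero_smul, one_smul, zero_sub,
      H923B.nz_of_norm (by rw [norm_neg, H923B.norm_el])]
  · intro i s y
    show uu (nz (rw0 s (cc (rf i.castSucc y)))) = rf i.castSucc (uu (nz (rw0 s (cc y))))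
    rw [cc_rf, rw0_sg, nz_sg, uu_sg]
  · intro i
    show rf i.castSucc (uu (-el m)) = uu (-el m)
    rw [← uu_sg]
    have e : -el m = (-1 : ℝ) • el m := by rw [neg_smul, one_smul]
    rw [e, sg_smul, sg_el]

theorem clamp_rf {m : ℕ} (i : Fin m) (v : Fin m → ℝ) : clamp (rf i v) = rf i (clamp v) := by
  funext j
  by_cases h : j = i
  · subst h
    rw [rf_same]
    show max 0 (min 1 (rf j v j)) = 1 - max 0 (min 1 (v j))
    rw [rf_same]
    rcases le_total (v j) 0 with h1 | h1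
    · rw [min_eq_left (by linarith), min_eq_right (by linarith : v j ≤ 1), max_eq_left h1,
        max_eq_right zero_le_one, sub_zero]
    rcases le_total 1 (v j) with h2 | h2
    · rw [min_eq_right (by linarith), min_eq_left h2, max_eq_left (by linarith),
        max_eq_right zero_le_one, sub_self]
    · rw [min_eq_right (by linarith), min_eq_right h2, max_eq_right (by linarith),
        max_eq_right h1]
  · rw [rf_ne h]
    show max 0 (min 1 (rf i v j)) = max 0 (min 1 (v j))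
    rw [rf_ne h]

/-- **the top face** -/
theorem topv_rf {m : ℕ} (i : Fin m) (v : Fin m → ℝ) : topv (rf i v) = rf i.castSucc (topv v) := by
  unfold topv
  rw [clamp_rf, rf_snoc_castSucc]

theorem rf_mem_cube {n : ℕ} (i : Fin n) {y : Fin n → ℝ} (hy : ∀ j, y j ∈ Icc (0:ℝ) 1) :
    ∀ j, rf i y j ∈ Icc (0:ℝ) 1 := by
  intro j
  by_cases h : j = i
  · subst h
    rw [rf_same]
    exact ⟨by linarith [(hy j).2], by linarith [(hy j).1]⟩
  · rw [rf_ne h]
    exact hy j

variable {M : Type} [MetricSpace M] [CompactSpace M] {x₀ : M} {m : ℕ}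
  {D : ℝ → (Fin (m + 1) → ℝ) → (Fin (m + 1) → ℝ)} {b : Fin (m + 1) → ℝ}

omit [CompactSpace M] in
/-- **the points `xx v` are permuted by `f`** -/
theorem xx_rf (C : Caps (m + 1) M x₀) (h : CollR m D b) (i : Fin m) {f : M → M}
    (hf : ∀ y : Fin (m + 1) → ℝ, (∀ j, y j ∈ Icc (0:ℝ) 1) → C.ψ (rf i.castSucc y) = f (C.ψ y))
    (v : Fin m → ℝ) : xx C D (rf i v) = f (xx C D v) := by
  unfold xx
  rw [topv_rf, h.rfD, hf _ (h.maps 1 ⟨zero_le_one, le_rfl⟩ (topv_mem v)).1]

omit [CompactSpace M] in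
/-- **the base point `ψ b` is fixed by `f`** -/
theorem xb_rf (C : Caps (m + 1) M x₀) (h : CollR m D b) (i : Fin m) {f : M → M}
    (hf : ∀ y : Fin (m + 1) → ℝ, (∀ j, y j ∈ Icc (0:ℝ) 1) → C.ψ (rf i.castSucc y) = f (C.ψ y)) :
    f (C.ψ b) = C.ψ b := by
  rw [← hf b h.b_mem.1, h.rfb]

end Vale.Agent.P216.H456
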