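import Vale.Agent.P216.H901.W4

/-!
# P216-C: step-like persistence modules (`α`-linearity, note 12516 (1))

`Lin A l C`: the persistence module `A` is, up to the shift `C`, a step module: zero below the
level `l`, constant above.

* `Lin.shift`, `Lin.mono`, `Lin.zero'`, `Lin.of_intl` (interleavings);
* `Lin.mid`: two out of three in a natural exact sequence;
* `Lin.bfb`: bounded bars; `Lin.fam_zero`, `Lin.fam_ne`: births of the compatible families.
-/

set_option linter.all false

namespace Vale.Agent.P216.H456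

open Vale.Agent.P216.H901

variable {k : Type} [Field k]

/-- `A` is, up to the shift `C`, zero below the level `l` and constant above. -/
structure Lin (A : PM k) (l C : ℝ) : Prop where
  low : ∀ s t (hs : 0 < s) (h : s ≤ t), s + C ≤ t → s + C ≤ l → ∀ x, A.ρ s t hs h x = 0
  sur : ∀ s t u (hs : 0 < s) (h : s ≤ t) (h' : s ≤ u), s + C ≤ t → l + C ≤ s →
    ∀ x, ∃ y, A.ρ s u hs h' y = A.ρ s t hs h x
  inj : ∀ s t u (hs : 0 < s) (ht : 0 < t) (h : s ≤ u) (h' : t ≤ u), l + C ≤ s → t + C ≤ u →
    ∀ x, A.ρ s u hs h x = 0 → A.ρ t u ht h' x = 0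

namespace Lin

variable {A B : PM k} {l l' C C' c : ℝ}

theorem mono (h : Lin A l C) (hC : C ≤ C') : Lin A l C' where
  low s t hs hst h1 h2 := h.low s t hs hst (by linarith) (by linarith)
  sur s t u hs hst hsu h1 h2 := h.sur s t u hs hst hsu (by linarith) (by linarith)
  inj s t u hs ht hsu htu h1 h2 := h.inj s t u hs ht hsu htu (by linarith) (by linarith)

/-- moving the threshold -/
theorem shift (h : Lin A l C) {e : ℝ} (h1 : l' ≤ l + e) (h2 : l ≤ l' + e) (he : 0 ≤ e) :
    Lin A l' (C + e) where
  low s t hs hst h3 h4 := h.low s t hs hst (by linarith) (by linarith)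
  sur s t u hs hst hsu h3 h4 := h.sur s t u hs hst hsu (by linarith) (by linarith)
  inj s t u hs ht hsu htu h3 h4 := h.inj s t u hs ht hsu htu (by linarith) (by linarith)

/-- ephemeral modules -/
theorem of_eph (h : A.Eph C) : Lin A l C where
  low s t hs hst h1 _ := h s t hs hst h1
  sur s t u hs hst hsu h1 _ x := ⟨0, by rw [map_zero, h s t hs hst h1]⟩
  inj s t u hs ht hsu htu _ h2 x _ := h t u ht htu h2 x

/-- the zero module -/
theorem of_subsingleton (h : ∀ t, 0 < t → Subsingleton (A.V t)) (hC : 0 ≤ C) : Lin A l C :=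
  of_eph fun s t hs _ _ x => @Subsingleton.elim _ (h s hs) _ _

/-- **Interleavings.** -/
theorem of_intl (I : Intl A B c) (h : Lin B l C) (hc : 0 ≤ c) (hC : 0 ≤ C) (hl : 0 ≤ l) :
    Lin A l (C + 2 * c) where
  low s t hs hst h1 h2 x := by
    rw [← I.gf s (s + c) t hs (by linarith) le_rfl (by linarith) hst,
      ← I.f_nat (t - c) t (s + c) t (by linarith) (by linarith) (by linarith) (by linarith)
        (by linarith) le_rfl (by linarith), A.ρ_refl,
      h.low (s + c) (t - c) (by linarith) (by linarith) (by linarith) (by linarith), map_zero]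
  sur s t u hs hst hsu h1 h2 x := by
    obtain ⟨y, hy⟩ := h.sur (s + c) (t - c) (u + c) (by linarith) (by linarith) (by linarith)
      (by linarith) (by linarith) (I.f (t - c) t (by linarith) (by linarith) x)
    refine ⟨I.g u (u + c) (by linarith) le_rfl y, ?_⟩
    have e1 : A.ρ s u hs hsu (I.g u (u + c) (by linarith) le_rfl y) =
        I.g s (s + c) hs le_rfl (B.ρ (s + c) (u + c) (by linarith) (by linarith) y) := by
      have a1 := I.g_nat u (u + c) s (u + c) (by linarith) (by linarith) hs le_rfl hsu le_rfl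
        (by linarith) y
      have a2 := I.g_nat s (s + c) s (u + c) hs (by linarith) hs le_rfl le_rfl (by linarith)
        (by linarith) y
      rw [B.ρ_refl] at a1
      rw [A.ρ_refl] at a2
      rw [a1, a2]
    have a3 := I.f_nat (t - c) t (s + c) t (by linarith) (by linarith) (by linarith)
      (by linarith) (by linarith) le_rfl (by linarith) x
    rw [A.ρ_refl] at a3
    rw [e1, hy, a3]
    exact I.gf s (s + c) t hs (by linarith) le_rfl (by linarith) hst x
  inj s t u hs ht hsu htu h1 h2 x hx := by
    have hsc : 0 < s - c := by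
      rcases hc.eq_or_lt with h0 | h0
      · rw [← h0, sub_zero]; exact hs
      · linarith
    have e1 : B.ρ (s - c) (u - c) hsc (by linarith) (I.f (u - c) u (by linarith) (by linarith) x) = 0 := by
      have a1 := I.f_nat (u - c) u (s - c) u (by linarith) (by linarith) hsc (by linarith)
        (by linarith) le_rfl (by linarith) x
      have a2 := I.f_nat (s - c) s (s - c) u hsc hs hsc (by linarith) le_rfl hsu
        (by linarith) x
      rw [A.ρ_refl] at a1
      rw [B.ρ_refl, hx, map_zero] at a2
      rw [a1, ← a2]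
    have e2 := h.inj (s - c) (t + c) (u - c) hsc (by linarith) (by linarith) (by linarith)
      (by linarith) (by linarith) _ e1
    have a1 := I.f_nat (u - c) u (t + c) u (by linarith) (by linarith) (by linarith) (by linarith)
        (by linarith) le_rfl (by linarith) x
    rw [A.ρ_refl] at a1
    rw [← I.gf t (t + c) u ht (by linarith) le_rfl (by linarith) htu, ← a1, e2, map_zero]

end Lin

/-- A piece of a natural exact sequence `D' → A → B → D → A'` of persistence modules. -/
structure Seq5 (D' A B D A' : PM k) where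
  d' : ∀ t, 0 < t → D'.V t →ₗ[k] A.V t
  f : ∀ t, 0 < t → A.V t →ₗ[k] B.V t
  g : ∀ t, 0 < t → B.V t →ₗ[k] D.V t
  d : ∀ t, 0 < t → D.V t →ₗ[k] A'.V t
  d'_nat : ∀ s t hs ht (h : s ≤ t) x, A.ρ s t hs h (d' t ht x) = d' s hs (D'.ρ s t hs h x)
  f_nat : ∀ s t hs ht (h : s ≤ t) x, B.ρ s t hs h (f t ht x) = f s hs (A.ρ s t hs h x)
  g_nat : ∀ s t hs ht (h : s ≤ t) x, D.ρ s t hs h (g t ht x) = g s hs (B.ρ s t hs h x)
  d_nat : ∀ s t hs ht (h : s ≤ t) x, A'.ρ s t hs h (d t ht x) = d s hs (D.ρ s t hs h x)
  ex1 : ∀ t ht, Function.Exact (d' t ht) (f t ht)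
  ex2 : ∀ t ht, Function.Exact (f t ht) (g t ht)
  ex3 : ∀ t ht, Function.Exact (g t ht) (d t ht)

/-- **Two out of three.** -/
theorem Lin.mid {D' A B D A' : PM k} (S : Seq5 D' A B D A') {l C : ℝ} (hl : 0 ≤ l) (hC : 0 ≤ C)
    (hD' : Lin D' l C) (hA : Lin A l C) (hD : Lin D l C) (hA' : Lin A' l C) :
    Lin B l (2 * C) where
  low s t hs hst h1 h2 x := by
    have hs1 : 0 < s + C := by linarith
    have ht : 0 < t := by linarith
    have e1 : S.g (s + C) hs1 (B.ρ (s + C) t hs1 (by linarith) x) = 0 := by
      rw [← S.g_nat (s + C) t hs1 ht (by linarith)]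
      exact hD.low _ _ hs1 (by linarith) (by linarith) (by linarith) _
    obtain ⟨a, ha⟩ := (S.ex2 _ hs1 _).1 e1
    rw [← B.ρ_comp s (s + C) t hs hs1 (by linarith) (by linarith) hst, ← ha,
      S.f_nat s (s + C) hs hs1 (by linarith), hA.low s (s + C) hs (by linarith) le_rfl (by linarith),
      map_zero]
  sur s t u hs hst hsu h1 h2 x := by
    have ht : 0 < t := by linarith
    have hu : 0 < u := by linarith
    rcases le_total u t with hut | htu
    · exact ⟨B.ρ u t hu hut x, B.ρ_comp s u t hs hu hsu hut hst x⟩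
    have ht1 : 0 < t - C := by linarith
    have hu1 : 0 < u + C := by linarith
    obtain ⟨d0, hd0⟩ := hD.sur (t - C) t (u + C) ht1 (by linarith) (by linarith) (by linarith)
      (by linarith) (S.g t ht x)
    have e1 : A'.ρ (t - C) (u + C) ht1 (by linarith) (S.d (u + C) hu1 d0) = 0 := by
      rw [S.d_nat (t - C) (u + C) ht1 hu1 (by linarith), hd0, S.g_nat (t - C) t ht1 ht (by linarith)]
      exact (S.ex3 _ ht1).apply_apply_eq_zero _
    have e2 := hA'.inj (t - C) u (u + C) ht1 hu (by linarith) (by linarith) (by linarith) le_rfl _ e1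
    rw [S.d_nat u (u + C) hu hu1 (by linarith)] at e2
    obtain ⟨b, hb⟩ := (S.ex3 _ hu _).1 e2
    have e3 : S.g (t - C) ht1 (B.ρ (t - C) u ht1 (by linarith) b - B.ρ (t - C) t ht1 (by linarith) x) = 0 := by
      rw [map_sub, ← S.g_nat (t - C) u ht1 hu (by linarith), ← S.g_nat (t - C) t ht1 ht (by linarith),
        hb, D.ρ_comp (t - C) u (u + C) ht1 hu (by linarith) (by linarith) (by linarith), hd0, sub_self]
    obtain ⟨a, ha⟩ := (S.ex2 _ ht1 _).1 e3
    obtain ⟨a', ha'⟩ := hA.sur s (t - C) u hs (by linarith) hsu (by linarith) (by linarith) a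
    refine ⟨b - S.f u hu a', ?_⟩
    have e4 : B.ρ s (t - C) hs (by linarith) (S.f (t - C) ht1 a) = B.ρ s u hs hsu b - B.ρ s t hs hst x := by
      rw [ha, map_sub, B.ρ_comp s (t - C) u hs ht1 (by linarith) (by linarith) hsu,
        B.ρ_comp s (t - C) t hs ht1 (by linarith) (by linarith) hst]
    rw [map_sub, S.f_nat s u hs hu hsu, ha', ← S.f_nat s (t - C) hs ht1 (by linarith), e4]
    abel
  inj s t u hs ht hsu htu h1 h2 x hx := by
    rcases le_total t s with hts | hst
    · rw [← B.ρ_comp t s u ht hs hts hsu htu, hx, map_zero]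
    have hu : 0 < u := by linarith
    have hu1 : 0 < u - C := by linarith
    have hs1 : 0 < s - C := by
      rcases hC.eq_or_lt with h0 | h0
      · rw [← h0, sub_zero]; exact hs
      · linarith
    have e1 : D.ρ s u hs hsu (S.g u hu x) = 0 := by
      rw [S.g_nat s u hs hu hsu, hx, map_zero]
    have e2 := hD.inj s (u - C) u hs hu1 hsu (by linarith) (by linarith) (by linarith) _ e1
    rw [S.g_nat (u - C) u hu1 hu (by linarith)] at e2
    obtain ⟨a, ha⟩ := (S.ex2 _ hu1 _).1 e2
    have e3 : S.f s hs (A.ρ s (u - C) hs (by linarith) a) = 0 := by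
      rw [← S.f_nat s (u - C) hs hu1 (by linarith), ha,
        B.ρ_comp s (u - C) u hs hu1 (by linarith) (by linarith) hsu, hx]
    obtain ⟨d, hd⟩ := (S.ex1 _ hs _).1 e3
    obtain ⟨d1, hd1⟩ := hD'.sur (s - C) s (u - C) hs1 (by linarith) (by linarith) (by linarith)
      (by linarith) d
    have e4 : A.ρ (s - C) (u - C) hs1 (by linarith) (a - S.d' (u - C) hu1 d1) = 0 := by
      rw [map_sub, S.d'_nat (s - C) (u - C) hs1 hu1 (by linarith), hd1,
        ← S.d'_nat (s - C) s hs1 hs (by linarith), hd,
        A.ρ_comp (s - C) s (u - C) hs1 hs (by linarith) (by linarith) (by linarith), sub_self]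
    have e5 := hA.inj (s - C) t (u - C) hs1 ht (by linarith) (by linarith) (by linarith)
      (by linarith) _ e4
    rw [map_sub, sub_eq_zero] at e5
    rw [← B.ρ_comp t (u - C) u ht hu1 (by linarith) (by linarith) htu, ← ha,
      S.f_nat t (u - C) ht hu1 (by linarith), e5, S.d'_nat t (u - C) ht hu1 (by linarith)]
    exact (S.ex1 _ ht).apply_apply_eq_zero _

namespace Lin

variable {A : PM k} {l C : ℝ}

/-- compatible families vanish below the threshold -/
theorem fam_zero (h : Lin A l C) (hC : 0 ≤ C) (z : A.Fam) {s : ℝ} (hs : 0 < s) (hsl : s + C ≤ l) :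
    z.z s hs = 0 := by
  rw [← z.comp s (s + C) hs (by linarith)]
  exact h.low s (s + C) hs (by linarith) le_rfl hsl _

/-- a compatible family which vanishes above the threshold is zero -/
theorem fam_ne (h : Lin A l C) (hC : 0 ≤ C) (z : A.Fam) {s : ℝ} (hs : 0 < s) (hsl : l + C ≤ s)
    (h0 : z.z s hs = 0) {t : ℝ} (ht : 0 < t) : z.z t ht = 0 := by
  have hu : 0 < max s t + C := by linarith [le_max_left s t]
  have e1 := z.comp s (max s t + C) hs (by linarith [le_max_left s t])
  rw [h0] at e1
  have e2 := h.inj s t (max s t + C) hs ht (by linarith [le_max_left s t])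
    (by linarith [le_max_right s t]) hsl (by linarith [le_max_right s t]) _ e1
  rwa [z.comp t (max s t + C) ht] at e2

/-- **Bounded bars.** -/
theorem bfb (h : Lin A l C) (hC : 0 ≤ C) : A.BFB (3 * C) := by
  intro s t hs hst h1 x
  rcases le_or_gt (s + C) l with hsl | hsl
  · exact ⟨PM.Fam.zero A, h.low s t hs hst (by linarith) hsl x⟩
  set r : ℝ := max s (l + C) with hr
  have hsr : s ≤ r := le_max_left _ _
  have hlr : l + C ≤ r := le_max_right _ _
  have hr0 : 0 < r := hs.trans_le hsr
  have hrt : r + C ≤ t := by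
    rw [hr, ← le_sub_iff_add_le]
    exact max_le (by linarith) (by linarith)
  have key : ∀ u (hu : r ≤ u), ∃ y : A.V (u + C), A.ρ r (u + C) hr0 (by linarith) y =
      A.ρ r t hr0 (by linarith) x := fun u hu =>
    h.sur r t (u + C) hr0 (by linarith) (by linarith) hrt hlr x
  choose y hy using key
  -- two elements with the same restriction to the level `r`
  have uniq : ∀ u (hu : r ≤ u) (v : ℝ) (hv : r ≤ v) (huv : u ≤ v),
      A.ρ u (v + C) (hr0.trans_le hu) (by linarith) (y v hv) =
        A.ρ u (u + C) (hr0.trans_le hu) (by linarith) (y u hu) := by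
    intro u hu v hv huv
    have hu0 := hr0.trans_le hu
    have e1 : A.ρ r (u + C) hr0 (by linarith)
        (A.ρ (u + C) (v + C) (by linarith) (by linarith) (y v hv) - y u hu) = 0 := by
      rw [map_sub, A.ρ_comp r (u + C) (v + C) hr0 (by linarith) (by linarith) (by linarith)
        (by linarith), hy v hv, hy u hu, sub_self]
    have e2 := h.inj r u (u + C) hr0 hu0 (by linarith) (by linarith) hlr le_rfl _ e1
    rw [map_sub, sub_eq_zero, A.ρ_comp u (u + C) (v + C) hu0 (by linarith) (by linarith)
      (by linarith) (by linarith)] at e2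
    exact e2
  have hmr : ∀ u, r ≤ max u r := fun u => le_max_right _ _
  refine ⟨⟨fun u hu => A.ρ u (max u r + C) hu (by linarith [le_max_left u r])
    (y (max u r) (hmr u)), ?_⟩, ?_⟩
  · intro u v hu huv
    have hv := hu.trans_le huv
    have huv' : max u r ≤ max v r := max_le_max_right r huv
    show A.ρ u v hu huv (A.ρ v (max v r + C) hv _ (y (max v r) (hmr v))) =
      A.ρ u (max u r + C) hu _ (y (max u r) (hmr u))
    rw [A.ρ_comp u v (max v r + C) hu hv huv (by linarith [le_max_left v r])
      (by linarith [le_max_left v r])]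
    have e := uniq (max u r) (hmr u) (max v r) (hmr v) huv'
    have e' := congrArg (A.ρ u (max u r) hu (le_max_left _ _)) e
    rwa [A.ρ_comp u (max u r) (max v r + C) hu _ (le_max_left _ _) _
      (by linarith [le_max_left u r]), A.ρ_comp u (max u r) (max u r + C) hu _ (le_max_left _ _) _
      (by linarith [le_max_left u r])] at e'
  · show A.ρ s t hs hst x = A.ρ s (max s r + C) hs _ (y (max s r) (hmr s))
    have e0 : A.ρ s t hs hst x = A.ρ s r hs hsr (A.ρ r t hr0 (by linarith) x) := by
      rw [A.ρ_comp s r t hs hr0 hsr (by linarith) hst]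
    rw [e0, ← hy (max s r) (hmr s), A.ρ_comp s r (max s r + C) hs hr0 hsr (by linarith [hmr s])
      (by linarith [le_max_left s r])]

end Lin

end Vale.Agent.P216.H456
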